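import Claimed.Agent.R315.Gs.Chart
import Claimed.Agent.R315.Pack011

/-!
# Row 315, package Gs, part 6: the gapped solve `gs_solve`

`(M,h,t)` as in `Gs/Defs.lean` (not nec. complete), `C > 0`, `W` smooth, gap `γ > 0`:
`γ ∫ φ² dμ ≤ ∫ (C|dφ|² + W φ²) dμ` for all test functions.  Then for every smooth `F ≥ 0` in `L²(μ)` there is a smooth
`z ≥ 0` in `L²(μ)` with `-C Δ_t z + W z = F` on `M`.

CHAIN (all glue proved here):
 `gs_min_seq`   minimising sequence of nonnegative test functions (from `gs_abs`, `gs_improve`, `gs_N_cs`)      PROVED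
 `gs_l2_lim`    `L²(μ)` limit                                                                     leaf GS-LIM
 `gs_chart_sol` in every parametrisation the limit has a smooth representative which solves the equation   leaf GS-CHARTSOL
 `gs_patch`     global smooth representative                                                        leaf GS-PATCH
 `gs_solve`     PROVED
Owner: helper209.
-/

set_option autoImplicit false
set_option maxSynthPendingDepth 6
set_option linter.unusedSectionVars false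
open scoped ContDiff Topology ENNReal
open Claims.C0499 Set MeasureTheory Filter
open Claimed.Agent.Lib

namespace Claimed.Agent.R315

variable {V : Type} [NormedAddCommGroup V] [NormedSpace ℝ V] [FiniteDimensional ℝ V]
  [MeasurableSpace V] [BorelSpace V]
variable {d : ℕ} {M : Set V} {h : Ten V} {t : V → ℝ} {ψ : E d → V} {U : Set (E d)}
variable {W F : V → ℝ} {C γ : ℝ}

/-- the output of the variational step. -/
structure GsSeq (d : ℕ) (M : Set V) (h : Ten V) (t : V → ℝ) (C : ℝ) (W F : V → ℝ)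
    (a : ℕ → V → ℝ) : Prop where
  test : ∀ k, IsTestOn d M (a k)
  nonneg : ∀ k x, 0 ≤ a k x
  cauchy : ∀ k l, gsB d M h t C W (fun x => a k x - a l x) (fun x => a k x - a l x)
    ≤ 2 * ((1 / 2 : ℝ) ^ k + (1 / 2 : ℝ) ^ l)
  sol : ∀ k (b : V → ℝ), IsTestOn d M b →
    (gsB d M h t C W (a k) b - gsN d M h t F b) ^ 2 ≤ (1 / 2 : ℝ) ^ k * gsB d M h t C W b b

theorem gs_min_seq (hG : GsGeo d M h t) (hW : SmoothAlong d M W) (hC : 0 < C) (hγ : 0 < γ)
    (hgap : GsGap d M h t C W γ) (hF : SmoothAlong d M F) (hF0 : ∀ x ∈ M, 0 ≤ F x)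
    (hF2 : Integrable (fun x => F x ^ 2) (wvol d M h t)) :
    ∃ a : ℕ → V → ℝ, GsSeq d M h t C W F a := by
  set I : ℝ := ∫ x, F x ^ 2 ∂(wvol d M h t) with hI
  have hI0 : 0 ≤ I := integral_nonneg fun x => sq_nonneg _
  obtain ⟨a, h1, h2, h3⟩ := gs_abs (T := gsTest d M)
    (fun a b => gsB d M h t C W (a : V → ℝ) (b : V → ℝ)) (fun a => gsN d M h t F (a : V → ℝ))
    (fun a => ∀ x, 0 ≤ (a : V → ℝ) x)
    (fun a b c => gs_B_add hG hW a.2.1 b.2.1 c.2)
    (fun r a c => gs_B_smul hG r a.2.1 c.2.1)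
    (fun a b => gs_B_symm hG a.2.1 b.2.1)
    (fun a b => gs_N_add hG hF a.2 b.2)
    (fun r a => gs_N_smul r F a)
    ((I + 1) / γ) (by positivity)
    (fun a => by
      have e1 := gs_N_cs hG hF hF2 a.2
      have e2 := hgap a a.2
      have e3 : 0 ≤ gsN d M h t (a : V → ℝ) (a : V → ℝ) := gs_N_nonneg _
      have e4 : gsN d M h t (a : V → ℝ) (a : V → ℝ) ≤ gsB d M h t C W (a : V → ℝ) a / γ := by
        rw [le_div_iff₀ hγ]; linarith
      calc gsN d M h t F (a : V → ℝ) ^ 2 ≤ I * gsN d M h t (a : V → ℝ) a := e1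
        _ ≤ (I + 1) * gsN d M h t (a : V → ℝ) a := by nlinarith
        _ ≤ (I + 1) * (gsB d M h t C W (a : V → ℝ) a / γ) := by
            apply mul_le_mul_of_nonneg_left e4; linarith
        _ = (I + 1) / γ * gsB d M h t C W (a : V → ℝ) a := by ring)
    (fun a δ hδ => by
      obtain ⟨φ', t1, t2, t3⟩ := gs_improve hG hW hC.le hF hF0 a.2 hδ
      exact ⟨⟨φ', t1⟩, t2, t3⟩)
    (fun k => (1 / 2 : ℝ) ^ k) (fun k => by positivity)
  exact ⟨fun k => (a k : V → ℝ), fun k => (a k).2, h1, h2, fun k b hb => h3 k ⟨b, hb⟩⟩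

/-- abstract form of `gs_l2_lim`. -/
theorem gsl_l2_lim {α : Type} [MeasurableSpace α] (μ : Measure α) (a : ℕ → α → ℝ)
    (ha : ∀ k, MemLp (a k) 2 μ) (e : ℕ → ℝ) (he : Tendsto e atTop (𝓝 0))
    (hc : ∀ k l, ∫ x, (a k x - a l x) * (a k x - a l x) ∂μ ≤ e k + e l) :
    ∃ z : α → ℝ, MemLp z 2 μ ∧
      Tendsto (fun k => eLpNorm (fun x => a k x - z x) 2 μ) atTop (𝓝 0) ∧
      ((∀ k x, 0 ≤ a k x) → ∀ᵐ x ∂μ, 0 ≤ z x) := by
  have hn : ∀ k l, ‖(ha k).toLp (a k) - (ha l).toLp (a l)‖ ^ 2 ≤ e k + e l := by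
    intro k l
    refine le_trans (le_of_eq ?_) (hc k l)
    rw [← real_inner_self_eq_norm_sq, L2.inner_def]
    refine integral_congr_ae ?_
    filter_upwards [Lp.coeFn_sub ((ha k).toLp (a k)) ((ha l).toLp (a l)), (ha k).coeFn_toLp,
      (ha l).coeFn_toLp] with x h1 h2 h3
    rw [h1, Pi.sub_apply, h2, h3]
    rfl
  have hcs : CauchySeq fun k => (ha k).toLp (a k) := by
    rw [Metric.cauchySeq_iff']
    intro ε hε
    have h1 : ∀ᶠ n in atTop, |e n| < ε ^ 2 / 2 := by
      have h0 : Tendsto (fun n => |e n|) atTop (𝓝 0) := by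
        have := he.abs
        rwa [abs_zero] at this
      exact (tendsto_order.1 h0).2 (ε ^ 2 / 2) (by positivity)
    obtain ⟨N, hN⟩ := eventually_atTop.1 h1
    refine ⟨N, fun n hn' => ?_⟩
    rw [dist_eq_norm]
    have h2 := hn n N
    have h3 := hN n hn'
    have h4 := hN N le_rfl
    have h5 : ‖(ha n).toLp (a n) - (ha N).toLp (a N)‖ ^ 2 < ε ^ 2 := by
      have := le_abs_self (e n)
      have := le_abs_self (e N)
      linarith
    exact lt_of_pow_lt_pow_left₀ 2 hε.le h5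
  obtain ⟨w, hw⟩ := cauchySeq_tendsto_of_complete hcs
  have hlim : Tendsto (fun k => eLpNorm (a k - ⇑w) 2 μ) atTop (𝓝 0) := by
    rw [← Lp.tendsto_Lp_iff_tendsto_eLpNorm'' a ha (⇑w) (Lp.memLp w), Lp.toLp_coeFn]
    exact hw
  refine ⟨⇑w, Lp.memLp w, hlim, fun h0 => ?_⟩
  have h1 := tendstoInMeasure_of_tendsto_eLpNorm (by norm_num : (2 : ℝ≥0∞) ≠ 0)
    (fun k => (ha k).aestronglyMeasurable) (Lp.memLp w).aestronglyMeasurable hlim
  obtain ⟨ns, -, h2⟩ := h1.exists_seq_tendsto_ae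
  filter_upwards [h2] with x hx
  exact ge_of_tendsto' hx fun i => h0 (ns i) x

/-- **leaf GS-LIM**.  PLAN: every test function is in `L²(μ)` (`gs_aesm`, `gs_integrable`); `eLpNorm f 2 μ ^ 2 = ofReal (gsN f f)`
(`MemLp.eLpNorm_eq_integral_rpow_norm` or `eLpNorm_eq_lintegral_rpow_enorm` + `ofReal_integral_eq_lintegral_ofReal`); the sequence
`(a k).toLp` is Cauchy in the complete space `Lp ℝ 2 μ`; `z` = a representative of the limit.  Nonnegativity: a subsequence
converges a.e. (`tendstoInMeasure_of_tendsto_eLpNorm`, `TendstoInMeasure.exists_seq_tendsto_ae`). -/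
theorem gs_l2_lim (hG : GsGeo d M h t) (a : ℕ → V → ℝ) (ha : ∀ k, IsTestOn d M (a k)) (e : ℕ → ℝ)
    (he : Tendsto e atTop (𝓝 0))
    (hc : ∀ k l, gsN d M h t (fun x => a k x - a l x) (fun x => a k x - a l x) ≤ e k + e l) :
    ∃ z : V → ℝ, MemLp z 2 (wvol d M h t) ∧
      Tendsto (fun k => eLpNorm (fun x => a k x - z x) 2 (wvol d M h t)) atTop (𝓝 0) ∧
      ((∀ k x, 0 ≤ a k x) → ∀ᵐ x ∂(wvol d M h t), 0 ≤ z x) := by
  have hm : ∀ k, MemLp (a k) 2 (wvol d M h t) := by
    intro k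
    have hcont : ContinuousOn (a k) M := if_smoothAlong_continuousOn hG.mfd (ha k).1
    rw [memLp_two_iff_integrable_sq (gs_aesm hG hcont)]
    obtain ⟨K, hK, hKM, h0⟩ := (ha k).2
    exact gs_integrable hG (hcont.pow 2) ⟨K, hK, hKM, fun x hx hxK => by
      show a k x ^ 2 = 0
      rw [h0 x hx hxK]
      norm_num⟩
  exact gsl_l2_lim (wvol d M h t) a hm e he hc

/-- **leaf GS-CHARTSOL** (glue between `M` and `gs_chart_reg`).
PLAN: apply `gs_chart_reg` with `G = cm h ψ`, `t ∘ ψ`, `W ∘ ψ`, `F ∘ ψ`, `un n = a n ∘ ψ`, `u = z ∘ ψ`.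
`hu`: `MemLp (z ∘ ψ) 2 (volume.restrict K)`: measurability from `gs_map_chart` (`z` is a.e. strongly measurable for the image measure,
`AEStronglyMeasurable.comp_aemeasurable`; the density is positive on `U`, `withDensity_absolutelyContinuous'`), norm from `gs_chart_l2`.
`h1`: `gs_chart_l2` with `f = a n - z`.
`h2`: on `U`, `fderiv (un n) - fderiv (un m) = fderiv ((a n - a m) ∘ ψ)`; `gs_chart_h1` on `K`, `gs_loc_energy` on `ψ '' K`,
`N(φ) ≤ B(φ,φ)/γ`, `GsSeq.cauchy`.
`h3`: for `b` with `Sob.IsTest U b`: `K = tsupport b`; `gs_push_test`, `gs_B_chart`, `gs_N_chart`, `GsSeq.sol`: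
`(B(a n, b̂) - N(F, b̂))² ≤ 2⁻ⁿ B(b̂,b̂) → 0`. -/
theorem gs_chart_sol (hG : GsGeo d M h t) (hW : SmoothAlong d M W) (hC : 0 < C) (hγ : 0 < γ)
    (hgap : GsGap d M h t C W γ) (hF : SmoothAlong d M F) {a : ℕ → V → ℝ}
    (ha : GsSeq d M h t C W F a) {z : V → ℝ} (hz : MemLp z 2 (wvol d M h t))
    (hlim : Tendsto (fun k => eLpNorm (fun x => a k x - z x) 2 (wvol d M h t)) atTop (𝓝 0))
    (hp : IsParam M ψ U) :
    ∃ v : E d → ℝ, ContDiffOn ℝ ∞ v U ∧ (∀ᵐ u ∂(volume.restrict U), z (ψ u) = v u) ∧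
      ∀ u ∈ U, -C * rm_dlapC (cm h ψ) (fun w => t (ψ w)) v u + W (ψ u) * v u = F (ψ u) := by
  have hUm : MeasurableSet U := (if_open hp).measurableSet
  have hun : ∀ n, ContDiffOn ℝ ∞ (fun w => a n (ψ w)) U := fun n => (ha.test n).1 ψ U hp
  -- `L²_loc`
  have hu : Sob.L2Loc volume U (fun w => z (ψ w)) := by
    intro K hK hKU
    obtain ⟨c, hc, hc2⟩ := gs_chart_l2 hG hp hK hKU
    refine ⟨?_, lt_of_le_of_lt (hc2 z) (ENNReal.mul_lt_top hc.lt_top hz.2)⟩
    have hρm : AEMeasurable (fun u => ENNReal.ofReal (ctRho h t ψ u)) (volume.restrict U) :=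
      ENNReal.measurable_ofReal.comp_aemeasurable
        ((gs_ctRho_smooth hG hp).continuousOn.aemeasurable hUm)
    have hψm : AEMeasurable ψ
        ((volume.restrict U).withDensity fun u => ENNReal.ofReal (ctRho h t ψ u)) :=
      ((if_continuousOn hp).aemeasurable hUm).mono_ac (withDensity_absolutelyContinuous _ _)
    have h1 : AEStronglyMeasurable z (Measure.map ψ
        ((volume.restrict U).withDensity fun u => ENNReal.ofReal (ctRho h t ψ u))) := by
      rw [← gs_map_chart hG hp]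
      exact hz.1.restrict
    have h2 := h1.comp_aemeasurable hψm
    have hac : volume.restrict U ≪
        (volume.restrict U).withDensity fun u => ENNReal.ofReal (ctRho h t ψ u) := by
      refine withDensity_absolutelyContinuous' hρm ?_
      filter_upwards [ae_restrict_mem hUm] with u hu
      exact (ENNReal.ofReal_pos.2 (gs_ctRho_pos hG hp hu)).ne'
    exact (h2.mono_ac hac).mono_measure (Measure.restrict_mono hKU le_rfl)
  -- `L²` convergence
  have h1 : ∀ K : Set (E d), IsCompact K → K ⊆ U →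
      Tendsto (fun n => eLpNorm (fun x => a n (ψ x) - z (ψ x)) 2 (volume.restrict K)) atTop
        (𝓝 0) := by
    intro K hK hKU
    obtain ⟨c, hc, hc2⟩ := gs_chart_l2 hG hp hK hKU
    have h3 := ENNReal.Tendsto.const_mul hlim (Or.inr hc)
    rw [mul_zero] at h3
    exact tendsto_of_tendsto_of_tendsto_of_le_of_le tendsto_const_nhds h3 (fun _ => zero_le)
      (fun n => hc2 (fun x => a n x - z x))
  -- the derivatives are Cauchy
  have h2 : ∀ K : Set (E d), IsCompact K → K ⊆ U → ∀ ε : ℝ≥0∞, 0 < ε → ∃ N : ℕ, ∀ n m : ℕ,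
      N ≤ n → N ≤ m →
      eLpNorm (fun x => fderiv ℝ (fun w => a n (ψ w)) x - fderiv ℝ (fun w => a m (ψ w)) x) 2
        (volume.restrict K) ≤ ε := by
    intro K hK hKU ε hε
    obtain ⟨c₁, hc₁, hh1⟩ := gs_chart_h1 hG hp hK hKU
    obtain ⟨c₂, hc₂, hh2⟩ := gs_loc_energy hG hW hC hγ.le hgap
      (hK.image_of_continuousOn ((if_continuousOn hp).mono hKU))
      ((image_mono hKU).trans (if_image_subset hp))
    obtain ⟨δ, hδ, hδε⟩ : ∃ δ : ℝ, 0 < δ ∧ ENNReal.ofReal δ ≤ ε := by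
      by_cases htop : ε = ⊤
      · exact ⟨1, one_pos, by rw [htop]; exact le_top⟩
      · exact ⟨ε.toReal, ENNReal.toReal_pos hε.ne' htop, by rw [ENNReal.ofReal_toReal htop]⟩
    obtain ⟨A, hA⟩ : ∃ A : ℝ, A = c₁ * (c₂ * ((1 + 1 / γ) * 4)) := ⟨_, rfl⟩
    have hA0 : 0 ≤ A := by rw [hA]; positivity
    have hlimA : Tendsto (fun N : ℕ => A * (1 / 2 : ℝ) ^ N) atTop (𝓝 0) := by
      have := (tendsto_pow_atTop_nhds_zero_of_lt_one (by norm_num : (0 : ℝ) ≤ 1 / 2)
        (by norm_num : (1 / 2 : ℝ) < 1)).const_mul A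
      simpa using this
    obtain ⟨N, hN⟩ := ((tendsto_order.1 hlimA).2 (δ ^ 2) (by positivity)).exists
    refine ⟨N, fun n m hn hm => le_trans ?_ hδε⟩
    have htest := (ha.test n).sub (ha.test m)
    have e1 : (fun x => fderiv ℝ (fun w => a n (ψ w)) x - fderiv ℝ (fun w => a m (ψ w)) x)
        =ᵐ[volume.restrict K] fun u => fderiv ℝ (fun w => a n (ψ w) - a m (ψ w)) u := by
      filter_upwards [ae_restrict_mem hK.measurableSet] with x hx
      have d1 : DifferentiableAt ℝ (fun w => a n (ψ w)) x :=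
        ((hun n).contDiffAt ((if_open hp).mem_nhds (hKU hx))).differentiableAt (by simp)
      have d2 : DifferentiableAt ℝ (fun w => a m (ψ w)) x :=
        ((hun m).contDiffAt ((if_open hp).mem_nhds (hKU hx))).differentiableAt (by simp)
      exact (fderiv_fun_sub d1 d2).symm
    rw [eLpNorm_congr_ae e1]
    have e2 := hh1 _ htest.1
    have e3 := hh2 _ htest
    have e4 := hgap _ htest
    have e5 := ha.cauchy n m
    have e6 : gsN d M h t (fun x => a n x - a m x) (fun x => a n x - a m x) ≤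
        gsB d M h t C W (fun x => a n x - a m x) (fun x => a n x - a m x) / γ := by
      rw [le_div_iff₀ hγ]
      linarith
    have p1 : (1 / 2 : ℝ) ^ n ≤ (1 / 2 : ℝ) ^ N :=
      pow_le_pow_of_le_one (by norm_num) (by norm_num) hn
    have p2 : (1 / 2 : ℝ) ^ m ≤ (1 / 2 : ℝ) ^ N :=
      pow_le_pow_of_le_one (by norm_num) (by norm_num) hm
    have e7 : gsB d M h t C W (fun x => a n x - a m x) (fun x => a n x - a m x) ≤
        4 * (1 / 2 : ℝ) ^ N := by linarith
    have e8 : c₁ * ∫ x in ψ '' K, gradSq d M h (fun x => a n x - a m x) x ∂(wvol d M h t) ≤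
        δ ^ 2 := by
      refine le_trans ?_ hN.le
      rw [hA]
      have e9 : gsB d M h t C W (fun x => a n x - a m x) (fun x => a n x - a m x) +
          gsN d M h t (fun x => a n x - a m x) (fun x => a n x - a m x) ≤
          (1 + 1 / γ) * 4 * (1 / 2 : ℝ) ^ N := by
        have hg : 0 ≤ 1 / γ := by positivity
        calc _ ≤ gsB d M h t C W (fun x => a n x - a m x) (fun x => a n x - a m x) +
              gsB d M h t C W (fun x => a n x - a m x) (fun x => a n x - a m x) / γ := by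
              linarith
          _ = (1 + 1 / γ) * gsB d M h t C W (fun x => a n x - a m x) (fun x => a n x - a m x) := by
              ring
          _ ≤ (1 + 1 / γ) * (4 * (1 / 2 : ℝ) ^ N) :=
              mul_le_mul_of_nonneg_left e7 (by positivity)
          _ = _ := by ring
      calc _ ≤ c₁ * (c₂ * ((1 + 1 / γ) * 4 * (1 / 2 : ℝ) ^ N)) :=
            mul_le_mul_of_nonneg_left (e3.trans (mul_le_mul_of_nonneg_left e9 hc₂)) hc₁
        _ = _ := by ring
    have e10 : eLpNorm (fun u => fderiv ℝ (fun w => a n (ψ w) - a m (ψ w)) u) 2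
        (volume.restrict K) ^ 2 ≤ ENNReal.ofReal δ ^ 2 := by
      rw [← ENNReal.ofReal_pow hδ.le]
      exact e2.trans (ENNReal.ofReal_le_ofReal e8)
    by_contra hlt
    exact absurd e10 (not_le.2 (ENNReal.pow_lt_pow_left two_ne_zero (not_le.1 hlt)))
  -- the weak equation in the limit
  have h3 : ∀ b : E d → ℝ, Sob.IsTest U b →
      Tendsto (fun n => ∫ x in U, (C * gradIpC (cm h ψ) (fun w => a n (ψ w)) b x +
          W (ψ x) * (a n (ψ x) * b x)) * gsRho (cm h ψ) (fun w => t (ψ w)) x) atTop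
        (𝓝 (∫ x in U, (F (ψ x) * b x) * gsRho (cm h ψ) (fun w => t (ψ w)) x)) := by
    intro b hb
    have hK : IsCompact (tsupport b) := hb.compact
    have h0 : ∀ u ∈ U, u ∉ tsupport b → b u = 0 := fun u _ hu => image_eq_zero_of_notMem_tsupport hu
    have htest := (gs_push_test hp hb.smooth.contDiffOn hK hb.supp h0).1
    simp only [← gs_B_chart hG hp (ha.test _).1 hb.smooth.contDiffOn hK hb.supp h0,
      ← gs_N_chart hG hp F hK hb.supp h0]
    have hsq : Tendsto (fun n => (gsB d M h t C W (a n) (gsPush ψ U b) -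
        gsN d M h t F (gsPush ψ U b)) ^ 2) atTop (𝓝 0) := by
      have hl : Tendsto (fun n : ℕ => (1 / 2 : ℝ) ^ n *
          gsB d M h t C W (gsPush ψ U b) (gsPush ψ U b)) atTop (𝓝 0) := by
        have := (tendsto_pow_atTop_nhds_zero_of_lt_one (by norm_num : (0 : ℝ) ≤ 1 / 2)
          (by norm_num : (1 / 2 : ℝ) < 1)).mul_const
            (gsB d M h t C W (gsPush ψ U b) (gsPush ψ U b))
        simpa using this
      exact squeeze_zero (fun n => sq_nonneg _) (fun n => ha.sol n _ htest) hl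
    have habs : Tendsto (fun n => |gsB d M h t C W (a n) (gsPush ψ U b) -
        gsN d M h t F (gsPush ψ U b)|) atTop (𝓝 0) := by
      have := (Real.continuous_sqrt.tendsto 0).comp hsq
      simpa [Real.sqrt_sq_eq_abs, Function.comp_def] using this
    exact tendsto_sub_nhds_zero_iff.1 ((tendsto_zero_iff_abs_tendsto_zero _).2 habs)
  exact gs_chart_reg (gs_met hG.met hp) (hG.drift ψ U hp) (hW ψ U hp) (hF ψ U hp) hC hun hu h1 h2 h3

/-- the continuous representatives in two parametrisations agree at corresponding points. -/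
theorem gsp_compat (hG : GsGeo d M h t) (z : V → ℝ) {ψ ψ' : E d → V} {U U' : Set (E d)}
    (hp : IsParam M ψ U) (hp' : IsParam M ψ' U') {v v' : E d → ℝ} (hv : ContinuousOn v U)
    (hv' : ContinuousOn v' U') (ha : ∀ᵐ u ∂(volume.restrict U), z (ψ u) = v u)
    (ha' : ∀ᵐ u ∂(volume.restrict U'), z (ψ' u) = v' u) {u u' : E d} (hu : u ∈ U) (hu' : u' ∈ U')
    (he : ψ u = ψ' u') : v u = v' u' := by
  have hU' : MeasurableSet U' := (if_open hp').measurableSet
  have hS' : MeasurableSet (ψ' '' U') := if_measurableSet_image hp' hU' Subset.rfl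
  have h1 : ∀ᵐ x ∂((wvol d M h t).restrict (ψ' '' U')),
      z x = v' (Function.invFunOn ψ' U' x) := by
    rw [gs_ae_chart hG hp']
    filter_upwards [ha', ae_restrict_mem hU'] with w hw hwU
    rw [if_leftInv hp' hwU]
    exact hw
  have h2 : ∀ᵐ x ∂(wvol d M h t), x ∈ ψ' '' U' → z x = v' (Function.invFunOn ψ' U' x) :=
    (ae_restrict_iff' hS').1 h1
  have h3 : ∀ᵐ w ∂(volume.restrict U),
      ψ w ∈ ψ' '' U' → z (ψ w) = v' (Function.invFunOn ψ' U' (ψ w)) :=
    (gs_ae_chart hG hp (fun x => x ∈ ψ' '' U' → z x = v' (Function.invFunOn ψ' U' x))).1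
      (ae_restrict_of_ae h2)
  have hT : IsOpen (if_trDom ψ U ψ' U') := if_isOpen_trDom hp hp'
  have hmem : u ∈ if_trDom ψ U ψ' U' := if_mem_trDom hu hu' he
  have hc1 : ContinuousOn v (if_trDom ψ U ψ' U') := hv.mono if_trDom_subset
  have hc2 : ContinuousOn (fun w => v' (if_tr ψ' U' ψ w)) (if_trDom ψ U ψ' U') :=
    hv'.comp (if_tr_continuousOn hp hp') (fun w hw => if_tr_mem hw)
  have hae : ∀ᵐ w ∂(volume.restrict (if_trDom ψ U ψ' U')), v w = v' (if_tr ψ' U' ψ w) := by
    have h4 : ∀ᵐ w ∂(volume.restrict (if_trDom ψ U ψ' U')),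
        (ψ w ∈ ψ' '' U' → z (ψ w) = v' (Function.invFunOn ψ' U' (ψ w))) ∧ z (ψ w) = v w :=
      ae_restrict_of_ae_restrict_of_subset if_trDom_subset (h3.and ha)
    filter_upwards [h4, ae_restrict_mem hT.measurableSet] with w hw hwT
    rw [← hw.2, hw.1 hwT.2]
    rfl
  have h5 := Sob.eqOn_of_ae_eq volume hT hc1 hc2 hae hmem
  rw [h5]
  show v' (if_tr ψ' U' ψ u) = v' u'
  rw [if_tr_eq hp' hu' he]

/-- **leaf GS-PATCH**: a function which has a smooth representative in every parametrisation has a representative which is smooth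
along `M`.
PLAN: choose for `x ∈ M` a parametrisation `(ψ_x, U_x)`, `x = ψ_x u_x`, and its representative `v_x`; `z' x = v_x u_x`.
CLAIM: for every parametrisation `(ψ,U)` with representative `v`: `z' (ψ u) = v u` on `U`.  Let `x = ψ u`, `T = if_trDom ψ U ψ_x U_x` (open,
`u ∈ T`), `τ = if_tr ψ_x U_x ψ`.  `v` and `v_x ∘ τ` are continuous on `T` and agree a.e. on `T`: `v w = z (ψ w) = z (ψ_x (τ w)) = v_x (τ w)`;
the exceptional set of the last equality is `T ∩ τ⁻¹' N`, `N ⊆ U_x` null, which is the image of `N ∩ τ '' T` under the smooth inverse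
transition map (`addHaar_image_eq_zero_of_differentiableOn_of_addHaar_eq_zero`).  `Sob.eqOn_of_ae_eq`.  Then `τ u = u_x`.
The a.e. statement: `gs_ae_of_charts`. -/
theorem gs_patch (hG : GsGeo d M h t) (z : V → ℝ)
    (hz : ∀ (ψ : E d → V) (U : Set (E d)), IsParam M ψ U →
      ∃ v : E d → ℝ, ContDiffOn ℝ ∞ v U ∧ ∀ᵐ u ∂(volume.restrict U), z (ψ u) = v u) :
    ∃ z' : V → ℝ, SmoothAlong d M z' ∧ (∀ᵐ x ∂(wvol d M h t), z x = z' x) ∧
      ∀ (ψ : E d → V) (U : Set (E d)), IsParam M ψ U →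
        ∀ᵐ u ∂(volume.restrict U), z (ψ u) = z' (ψ u) := by
  classical
  choose v hv1 hv2 using hz
  choose! Ψ Uc hpc hmem using hG.mfd
  obtain ⟨z', hz'⟩ : ∃ z' : V → ℝ, z' = fun x => if hx : x ∈ M then
      v (Ψ x) (Uc x) (hpc x hx) (Function.invFunOn (Ψ x) (Uc x) x) else 0 := ⟨_, rfl⟩
  have key : ∀ (ψ : E d → V) (U : Set (E d)) (hp : IsParam M ψ U), ∀ u ∈ U,
      z' (ψ u) = v ψ U hp u := by
    intro ψ U hp u hu
    have hx : ψ u ∈ M := if_mem hp hu
    rw [hz']
    show (if hx : ψ u ∈ M then _ else 0) = _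
    rw [dif_pos hx]
    exact gsp_compat hG z (hpc _ hx) hp (hv1 _ _ _).continuousOn (hv1 _ _ _).continuousOn
      (hv2 _ _ _) (hv2 _ _ _) (if_inv_mem (hmem _ hx)) hu (if_rightInv (hmem _ hx))
  have hch : ∀ (ψ : E d → V) (U : Set (E d)), IsParam M ψ U →
      ∀ᵐ u ∂(volume.restrict U), z (ψ u) = z' (ψ u) := by
    intro ψ U hp
    filter_upwards [hv2 ψ U hp, ae_restrict_mem (if_open hp).measurableSet] with u hu huU
    rw [hu, key ψ U hp u huU]
  exact ⟨z', fun ψ U hp => (hv1 ψ U hp).congr fun u hu => key ψ U hp u hu,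
    gs_ae_of_charts hG (fun x => z x = z' x) hch, hch⟩

/-- **the gapped solve**. -/
theorem gs_solve (hG : GsGeo d M h t) (hW : SmoothAlong d M W) (hC : 0 < C) (hγ : 0 < γ)
    (hgap : GsGap d M h t C W γ) (hF : SmoothAlong d M F) (hF0 : ∀ x ∈ M, 0 ≤ F x)
    (hF2 : Integrable (fun x => F x ^ 2) (wvol d M h t)) :
    ∃ z : V → ℝ, SmoothAlong d M z ∧ (∀ x ∈ M, 0 ≤ z x) ∧ MemLp z 2 (wvol d M h t) ∧
      ∀ x ∈ M, -C * wlap d M h t z x + W x * z x = F x := by
  obtain ⟨a, ha⟩ := gs_min_seq hG hW hC hγ hgap hF hF0 hF2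
  have he : Tendsto (fun k : ℕ => 2 / γ * (1 / 2 : ℝ) ^ k) atTop (𝓝 0) := by
    have := (tendsto_pow_atTop_nhds_zero_of_lt_one (by norm_num : (0 : ℝ) ≤ 1 / 2)
      (by norm_num : (1 / 2 : ℝ) < 1)).const_mul (2 / γ)
    simpa using this
  obtain ⟨z, hz2, hlim, hpos⟩ := gs_l2_lim hG a ha.test (fun k => 2 / γ * (1 / 2 : ℝ) ^ k) he
    (fun k l => by
      have e1 := hgap _ ((ha.test k).sub (ha.test l))
      have e2 := ha.cauchy k l
      have e3 : gsN d M h t (fun x => a k x - a l x) (fun x => a k x - a l x) ≤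
          (2 * ((1 / 2 : ℝ) ^ k + (1 / 2 : ℝ) ^ l)) / γ := by
        rw [le_div_iff₀ hγ]; linarith
      calc _ ≤ (2 * ((1 / 2 : ℝ) ^ k + (1 / 2 : ℝ) ^ l)) / γ := e3
        _ = _ := by ring)
  have hch := fun (ψ : E d → V) (U : Set (E d)) (hp : IsParam M ψ U) =>
    gs_chart_sol hG hW hC hγ hgap hF ha hz2 hlim hp
  obtain ⟨z', hs, hae, haec⟩ := gs_patch hG z fun ψ U hp => by
    obtain ⟨v, v1, v2, -⟩ := hch ψ U hp
    exact ⟨v, v1, v2⟩
  refine ⟨z', hs, ?_, hz2.ae_eq hae, ?_⟩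
  · have hc : ContinuousOn z' (M ∩ univ) := by
      rw [inter_univ]; exact if_smoothAlong_continuousOn hG.mfd hs
    have := gs_nonneg_of_ae hG isOpen_univ hc (by
      filter_upwards [hae, hpos ha.nonneg] with x h1 h2 _
      rw [← h1]; exact h2)
    intro x hx
    exact this x ⟨hx, mem_univ _⟩
  · intro x hx
    obtain ⟨ψ, U, hp, u, hu, rfl⟩ := hG.mfd x hx
    obtain ⟨v, v1, v2, v3⟩ := hch ψ U hp
    have heq : EqOn (fun w => z' (ψ w)) v U := by
      refine Sob.eqOn_of_ae_eq volume (if_open hp) (hs ψ U hp).continuousOn v1.continuousOn ?_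
      filter_upwards [v2, haec ψ U hp] with w h1 h2
      rw [← h2, h1]
    rw [gs_wlap_eq hG.met hG.drift hs hp hu]
    have h5 : rm_dlapC (cm h ψ) (fun w => t (ψ w)) (fun w => z' (ψ w)) u =
        rm_dlapC (cm h ψ) (fun w => t (ψ w)) v u := by
      have hev : (fun w => z' (ψ w)) =ᶠ[𝓝 u] v := heq.eventuallyEq_of_mem ((if_open hp).mem_nhds hu)
      unfold rm_dlapC
      rw [rm_lap_congr hev, rm_ip_congr (EventuallyEq.refl _ _) hev]
    rw [h5, show z' (ψ u) = v u from heq hu]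
    exact v3 u hu

end Claimed.Agent.R315
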