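import Claimed.Agent.R315.Pack004
import Claimed.Agent.R315.Gs.Solve
import Claimed.Agent.R315.Pack006
import Claimed.Agent.R315.Pack008

/-!
# Row 315, package Gs, part 7: Allegretto-Piepenbrink (positive supersolutions) and `ss_super`

* `gs_aap`       : a gap `γ > 0` of the form `C|dφ|² + Wφ²` gives a smooth `z > 0` with `-C Δ_t z + W z > 0` on `M`.
  NO strong maximum principle / Harnack inequality is used: solve with a right hand side `F > 0` EVERYWHERE; at a zero of `z ≥ 0`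
  (a minimum) `-C Δ_t z + W z = -C Δ_t z ≤ 0 < F`.
* `gs_aap_drift` : in terms of the drift scalar curvature, `0 < C ≤ 4`:
  `γ∫φ² ≤ ∫ C|dφ|² + (D(h,t) - Vs) φ²`  ⟹  `D(h, t - (C/2) log z) > Vs`.
* `gs_ss_super`  : `Good n M g ⟹ ∃ w, Drift n M g w (3/4)`   (= `ss_super` of `Top/Main.lean`).

Leaves: GS-POSL2 (`gs_exists_pos_l2`), GS-MIN (`gs_lapC_min`), GS-EXT (`gs_extend`), GS-SPEC (`gs_gap_of_spectral`).
Owner: helper209.
-/

set_option autoImplicit false
set_option linter.unusedSectionVars false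
open scoped ContDiff Topology ENNReal
open Claims.C0499 Set MeasureTheory Filter

namespace Claimed.Agent.R315

/-- **leaf GS-MIN** (chart level): first and second order conditions at a local minimum.
PLAN: `IsLocalMin.fderiv_eq_zero`; `rm_lapC_eq`: `lapC G f u = ∑ G⁻¹ i j hessC G f u i j`, `hessC = ∂_i∂_j f` because `∂f = 0`.
The matrix `H = (∂_i∂_j f(u))` is positive semidefinite: for `ξ`, `g(s) = f(u + s ξ)` has a local minimum at `0`, `g'(0) = 0`,
`g''(0) = ξᵀHξ`; if `g''(0) < 0` then `isLocalMax_of_deriv_deriv_neg` gives a strict local maximum: contradiction with `g'' < 0` near... (or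
Taylor).  `tr(G⁻¹H) ≥ 0`: `G⁻¹` is positive definite (`rm_inv_pos`), write `G⁻¹ = Bᵀ B` (`Matrix.PosSemidef` square root /
`posSemidef_iff_eq_conjTranspose_mul_self`), `tr(BᵀBH) = ∑_k (B H Bᵀ)_{kk} ≥ 0`. -/
theorem gs_lapC_min {d : ℕ} {G : rm_MF d} {U : Set (E d)} {f : E d → ℝ} {u : E d}
    (hG : rm_Met G U) (hu : u ∈ U) (hf : ContDiffOn ℝ ∞ f U) (hmin : IsLocalMin f u) :
    (∀ i, pdiff f i u = 0) ∧ 0 ≤ lapC G f u :=
  ⟨rm_min_pdiff hmin, rm_min_lap hG hu hf hmin⟩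

variable {V : Type} [NormedAddCommGroup V] [NormedSpace ℝ V] [FiniteDimensional ℝ V]
variable {d : ℕ} {M : Set V} {h : Ten V} {t : V → ℝ}
variable {W F f Vs : V → ℝ} {C γ : ℝ}

/-- at a local minimum on `M` the drift Laplacian is nonnegative. -/
theorem gs_wlap_min (hM : IsMfd d M) (hh : IsMetricOn d M h) (ht : SmoothAlong d M t)
    (hf : SmoothAlong d M f) {x : V} (hx : x ∈ M)
    (hmin : ∃ O ∈ 𝓝 x, ∀ y ∈ M ∩ O, f x ≤ f y) : 0 ≤ wlap d M h t f x := by
  obtain ⟨ψ, U, hp, u, hu, rfl⟩ := hM x hx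
  obtain ⟨O, hO, hmin⟩ := hmin
  have hc : ContinuousAt ψ u := (if_continuousOn hp).continuousAt ((if_open hp).mem_nhds hu)
  have hloc : IsLocalMin (fun w => f (ψ w)) u := by
    filter_upwards [hc.eventually hO, (if_open hp).mem_nhds hu] with w hw hwU
    exact hmin _ ⟨if_mem hp hwU, hw⟩
  obtain ⟨h1, h2⟩ := gs_lapC_min (f := fun w => f (ψ w)) (gs_met hh hp) hu (hf ψ U hp) hloc
  rw [gs_wlap_eq hh ht hf hp hu]
  have h3 : gradIpC (cm h ψ) (fun w => t (ψ w)) (fun w => f (ψ w)) u = 0 := by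
    unfold gradIpC
    exact Finset.sum_eq_zero fun i _ => Finset.sum_eq_zero fun j _ => by rw [h1 j, mul_zero]
  unfold rm_dlapC
  rw [h3, sub_zero]
  exact h2

/-- **leaf GS-EXT**: a test function on `M` is the restriction of an ambient test function (`M` need not be closed).
PLAN: `K` = support.  For `x ∈ K`: parametrisation `(ψ,U)`, `if_exists_retr` gives `ρ : O_x → U` smooth with `ρ = ψ⁻¹` on `M ∩ O_x`;
`φ_x = (φ ∘ ψ) ∘ ρ` is smooth on `O_x` and equals `φ` on `M ∩ O_x`.  Finite subcover `O_i` of `K`, smooth partition of unity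
(`SmoothPartitionOfUnity.exists_isSubordinate` for the closed set `K` in `V`, or bump functions `χ_i` with `tsupport χ_i ⊆ O_i` compact,
`∑ χ_i = 1` on `K`); `φ̃ = ∑ χ_i φ_i` (each term extended by `0`).  On `M`: `φ̃ y = φ y ∑_i χ_i y`, which is `φ y` on `K` and `0 = φ y` off `K`. -/
theorem gs_extend (hM : IsMfd d M) {φ : V → ℝ} (hφ : IsTestOn d M φ) :
    ∃ φ' : V → ℝ, ContDiff ℝ ∞ φ' ∧ HasCompactSupport φ' ∧ ∀ x ∈ M, φ' x = φ x := by
  obtain ⟨hs, K, hK, hKM, h0⟩ := hφ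
  obtain ⟨f', ⟨Ω, hΩ, hMΩ, hf'⟩, heq⟩ := if_exists_extension hM hs
  obtain ⟨L, hL, hKL, hLΩ⟩ := exists_compact_between hK hΩ (hKM.trans hMΩ)
  obtain ⟨χ, h1, hχ0, -⟩ := exists_contMDiffMap_one_nhds_of_subset_interior (n := ⊤)
    (modelWithCornersSelf ℝ V) hK.isClosed hKL
  have hχs : ContDiff ℝ ∞ χ := χ.contMDiff.contDiff
  have hsupp0 : Function.support χ ⊆ L := fun x hx => by_contra fun hxL => hx (hχ0 x hxL)
  have hsupp : tsupport χ ⊆ L := closure_minimal hsupp0 hL.isClosed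
  refine ⟨fun x => χ x * f' x, ?_, ?_, ?_⟩
  · rw [contDiff_iff_contDiffAt]
    intro x
    by_cases hx : x ∈ Ω
    · exact hχs.contDiffAt.mul (hf'.contDiffAt (hΩ.mem_nhds hx))
    · have hx' : x ∉ tsupport χ := fun hh => hx (hLΩ (hsupp hh))
      have hev : (fun y => χ y * f' y) =ᶠ[𝓝 x] fun _ => (0 : ℝ) := by
        filter_upwards [notMem_tsupport_iff_eventuallyEq.1 hx'] with y hy
        rw [hy]
        simp
      exact contDiffAt_const.congr_of_eventuallyEq hev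
  · have hc : HasCompactSupport χ := HasCompactSupport.of_support_subset_isCompact hL hsupp0
    exact hc.mul_right
  · intro x hx
    show χ x * f' x = φ x
    by_cases hxK : x ∈ K
    · have h2 : χ x = 1 := h1.self_of_nhdsSet x hxK
      rw [h2, one_mul, heq hx]
    · rw [heq hx, h0 x hx hxK, mul_zero]

section meas

variable [MeasurableSpace V] [BorelSpace V]

/-- **leaf GS-POSL2**: a positive smooth function in `L²(μ)`.
PLAN: cover `M` by countably many balls `B(x_k, r_k)`, `x_k ∈ M`, with `M ∩ closedBall x_k (2 r_k)` contained in a compact subset of `M`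
(`gs_exists_compact_nhd` for `K = {x}`, Lindelöf: `TopologicalSpace.countable_cover_nhdsWithin` as in `if_exists_atlas`); `η_k` a smooth bump
(`ContDiffBump`), `0 ≤ η_k ≤ 1`, `> 0` on `B(x_k,r_k)`, `= 0` off `B(x_k, 2 r_k)`; `F = ∑' a_k η_k` with
`0 < a_k ≤ 2⁻ᵏ / (1 + max_{j ≤ k} sup ‖D^j η_k‖ + μ(M ∩ closedBall x_k (2r_k)))`: smooth by `contDiff_tsum_of_eventually` (copy the proof of
`IsOpen.exists_contDiff_support_eq` in Mathlib), positive on `M`, and `F² ≤ (∑ 2⁻ᵏ)(∑ 2ᵏ a_k² η_k²)`, `∫ ≤ 2 ∑ 2ᵏ a_k² μ(..) ≤ 2 ∑ 2⁻ᵏ`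
(`lintegral_tsum`).  If `M = ∅` take `F = 1`. -/
theorem gs_exists_pos_l2 (hG : GsGeo d M h t) :
    ∃ F : V → ℝ, SmoothAlong d M F ∧ (∀ x ∈ M, 0 < F x) ∧
      Integrable (fun x => F x ^ 2) (wvol d M h t) := by
  classical
  have hM := hG.mfd
  have hcov : ∀ p ∈ M, ∃ (K' O : Set V), IsCompact K' ∧ K' ⊆ M ∧ IsOpen O ∧ p ∈ O ∧
      M ∩ O ⊆ K' := by
    intro p hp
    obtain ⟨K', O, h1, h2, h3, h4, h5⟩ :=
      gs_exists_compact_nhd hM isCompact_singleton (singleton_subset_iff.2 hp)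
    exact ⟨K', O, h1, h2, h3, h4 rfl, h5⟩
  choose! K' O hK' hK'M hO hpO hMO using hcov
  obtain ⟨κ, hκ, k, χ, hχ, -, hsub, hnn, hlf, hone, -⟩ :=
    if_exists_pou (fun p : M => O p) fun p => hO p p.2
  have hMΩ : M ⊆ ⋃ p : M, O p := fun p hp => mem_iUnion.2 ⟨⟨p, hp⟩, hpO p hp⟩
  obtain ⟨enc, henc⟩ := Countable.exists_injective_nat κ
  have hfin : ∀ a, wvol d M h t (K' (k a)) < ⊤ := fun a =>
    gs_wvol_compact hG (hK' _ (k a).2) (hK'M _ (k a).2)
  obtain ⟨c, hcdef⟩ : ∃ c : κ → ℝ,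
      c = fun a => (1 / 2 : ℝ) ^ enc a / (1 + (wvol d M h t (K' (k a))).toReal) := ⟨_, rfl⟩
  have hm0 : ∀ a, 0 ≤ (wvol d M h t (K' (k a))).toReal := fun a => ENNReal.toReal_nonneg
  have hc0 : ∀ a, 0 < c a := fun a => by
    rw [hcdef]
    have := hm0 a
    positivity
  have hc1 : ∀ a, c a ≤ 1 := fun a => by
    rw [hcdef]
    have := hm0 a
    show (1 / 2 : ℝ) ^ enc a / (1 + (wvol d M h t (K' (k a))).toReal) ≤ 1
    rw [div_le_one (by positivity)]
    have h2 : (1 / 2 : ℝ) ^ enc a ≤ 1 := pow_le_one₀ (by norm_num) (by norm_num)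
    linarith
  have hcμ : ∀ a, ENNReal.ofReal (c a) * wvol d M h t (K' (k a)) ≤ (2⁻¹ : ℝ≥0∞) ^ enc a := by
    intro a
    have h2 := hm0 a
    have e1 : (2⁻¹ : ℝ≥0∞) ^ enc a = ENNReal.ofReal ((1 / 2 : ℝ) ^ enc a) := by
      rw [ENNReal.ofReal_pow (by norm_num), one_div, ENNReal.ofReal_inv_of_pos (by norm_num)]
      norm_num
    rw [e1, ← ENNReal.ofReal_toReal (hfin a).ne, ← ENNReal.ofReal_mul (hc0 a).le]
    refine ENNReal.ofReal_le_ofReal ?_
    rw [hcdef]
    show (1 / 2 : ℝ) ^ enc a / (1 + (wvol d M h t (K' (k a))).toReal) *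
      (wvol d M h t (K' (k a))).toReal ≤ (1 / 2 : ℝ) ^ enc a
    rw [div_mul_eq_mul_div, div_le_iff₀ (by positivity)]
    have h3 : (0 : ℝ) ≤ (1 / 2 : ℝ) ^ enc a := by positivity
    nlinarith
  have hfs : ∀ x ∈ M, ∃ s : Finset κ, ∀ a, a ∉ s → χ a x = 0 := by
    intro x hx
    obtain ⟨W, hW, hf⟩ := hlf x (hMΩ hx)
    refine ⟨hf.toFinset, fun a ha => ?_⟩
    by_contra h0
    exact ha (hf.mem_toFinset.2 ⟨x, h0, mem_of_mem_nhds hW⟩)
  obtain ⟨F, hFdef⟩ : ∃ F : V → ℝ, F = fun x => ∑ᶠ a, χ a x • c a := ⟨_, rfl⟩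
  have hFs : ∀ x, ∀ s : Finset κ, (∀ a, a ∉ s → χ a x = 0) → F x = ∑ a ∈ s, χ a x * c a := by
    intro x s hs
    rw [hFdef]
    refine finsum_eq_sum_of_support_subset _ fun a ha => ?_
    by_contra h0
    exact ha (by
      show χ a x • c a = 0
      rw [hs a h0, zero_smul])
  have h1s : ∀ x ∈ M, ∀ s : Finset κ, (∀ a, a ∉ s → χ a x = 0) → ∑ a ∈ s, χ a x = 1 := by
    intro x hx s hs
    rw [← hone x (hMΩ hx)]
    symm
    refine finsum_eq_sum_of_support_subset _ fun a ha => ?_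
    by_contra h0
    exact ha (hs a h0)
  have hsm : SmoothAlong d M F := by
    have h1 : ContDiffOn ℝ ∞ F (⋃ p : M, O p) := fun x hx => by
      rw [hFdef]
      exact (if_glue (fun a : κ => O (k a)) (fun a => hO _ (k a).2) (fun a _ => c a)
        (fun a => contDiffOn_const) id χ hχ hsub hlf x hx).contDiffWithinAt
    exact if_smoothAlong_of_near ⟨⋃ p : M, O p, isOpen_iUnion fun p : M => hO p p.2, hMΩ, h1⟩
  have hpos : ∀ x ∈ M, 0 < F x := by
    intro x hx
    obtain ⟨s, hs⟩ := hfs x hx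
    rw [hFs x s hs]
    have h2 := h1s x hx s hs
    have h3 : ∃ a ∈ s, 0 < χ a x := by
      by_contra hcon
      push Not at hcon
      have : ∑ a ∈ s, χ a x ≤ 0 := Finset.sum_nonpos hcon
      linarith
    obtain ⟨a, ha, hpa⟩ := h3
    exact Finset.sum_pos' (fun b _ => mul_nonneg (hnn b x) (hc0 b).le) ⟨a, ha, mul_pos hpa (hc0 a)⟩
  have hle1 : ∀ x ∈ M, F x ≤ 1 := by
    intro x hx
    obtain ⟨s, hs⟩ := hfs x hx
    rw [hFs x s hs, ← h1s x hx s hs]
    exact Finset.sum_le_sum fun a _ => by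
      have := mul_le_mul_of_nonneg_left (hc1 a) (hnn a x)
      rwa [mul_one] at this
  have hχ1 : ∀ x ∈ M, ∀ a, χ a x ≤ 1 := by
    intro x hx a
    obtain ⟨s, hs⟩ := hfs x hx
    by_cases ha : a ∈ s
    · rw [← h1s x hx s hs]
      exact Finset.single_le_sum (f := fun b => χ b x) (fun b _ => hnn b x) ha
    · rw [hs a ha]
      exact zero_le_one
  have hpt : ∀ x ∈ M, ENNReal.ofReal (F x) ≤
      ∑' a, (K' (k a)).indicator (fun _ => ENNReal.ofReal (c a)) x := by
    intro x hx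
    obtain ⟨s, hs⟩ := hfs x hx
    rw [hFs x s hs, ENNReal.ofReal_sum_of_nonneg fun a _ => mul_nonneg (hnn a x) (hc0 a).le]
    refine le_trans (Finset.sum_le_sum fun a _ => ?_) (ENNReal.sum_le_tsum s)
    by_cases h0 : χ a x = 0
    · rw [h0, zero_mul, ENNReal.ofReal_zero]
      exact zero_le
    · have hxK : x ∈ K' (k a) := hMO _ (k a).2 ⟨hx, hsub a (subset_tsupport _ h0)⟩
      rw [indicator_of_mem hxK]
      refine ENNReal.ofReal_le_ofReal ?_
      have := mul_le_mul_of_nonneg_right (hχ1 x hx a) (hc0 a).le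
      rwa [one_mul] at this
  have hcont : ContinuousOn F M := if_smoothAlong_continuousOn hM hsm
  refine ⟨F, hsm, hpos, gs_aesm hG (hcont.pow 2), ?_⟩
  have hlt : ∫⁻ x, ∑' a, (K' (k a)).indicator (fun _ => ENNReal.ofReal (c a)) x
      ∂(wvol d M h t) < ⊤ := by
    rw [lintegral_tsum fun a => (measurable_const.indicator (hK' _ (k a).2).measurableSet).aemeasurable]
    have h2 : ∀ a, ∫⁻ x, (K' (k a)).indicator (fun _ => ENNReal.ofReal (c a)) x ∂(wvol d M h t) ≤
        (2⁻¹ : ℝ≥0∞) ^ enc a := fun a => by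
      rw [lintegral_indicator_const (hK' _ (k a).2).measurableSet]
      exact hcμ a
    refine lt_of_le_of_lt (ENNReal.tsum_le_tsum h2) ?_
    refine lt_of_le_of_lt (ENNReal.tsum_comp_le_tsum_of_injective henc fun n => (2⁻¹ : ℝ≥0∞) ^ n) ?_
    rw [ENNReal.tsum_geometric, ENNReal.one_sub_inv_two, inv_inv]
    exact ENNReal.ofNat_lt_top
  refine lt_of_le_of_lt (lintegral_mono_ae ?_) hlt
  filter_upwards [gs_ae_mem hG] with x hx
  refine le_trans ?_ (hpt x hx)
  rw [← ofReal_norm, Real.norm_eq_abs, abs_of_nonneg (sq_nonneg _)]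
  refine ENNReal.ofReal_le_ofReal ?_
  have h5 := (hpos x hx).le
  have h6 := hle1 x hx
  nlinarith

/-- **Allegretto-Piepenbrink with a gap**. -/
theorem gs_aap (hG : GsGeo d M h t) (hW : SmoothAlong d M W) (hC : 0 < C) (hγ : 0 < γ)
    (hgap : GsGap d M h t C W γ) :
    ∃ z : V → ℝ, SmoothAlong d M z ∧ (∀ x ∈ M, 0 < z x) ∧
      ∀ x ∈ M, 0 < -C * wlap d M h t z x + W x * z x := by
  obtain ⟨F, hF, hFpos, hF2⟩ := gs_exists_pos_l2 hG
  obtain ⟨z, hz, hz0, -, heq⟩ := gs_solve hG hW hC hγ hgap hF (fun x hx => (hFpos x hx).le) hF2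
  refine ⟨z, hz, fun x hx => ?_, fun x hx => by rw [heq x hx]; exact hFpos x hx⟩
  rcases (hz0 x hx).lt_or_eq with hlt | he
  · exact hlt
  · exfalso
    have h1 : 0 ≤ wlap d M h t z x := gs_wlap_min hG.mfd hG.met hG.drift hz hx
      ⟨univ, univ_mem, fun y hy => by rw [← he]; exact hz0 y hy.1⟩
    have h2 := heq x hx
    have h3 := hFpos x hx
    rw [← he, mul_zero, add_zero] at h2
    nlinarith

/-- **Allegretto-Piepenbrink in terms of the drift scalar curvature**. -/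
theorem gs_aap_drift (hG : GsGeo d M h t) (hV : SmoothAlong d M Vs) (hC : 0 < C) (hC4 : C ≤ 4)
    (hγ : 0 < γ) (hgap : GsGap d M h t C (fun x => Dsc d M h t x - Vs x) γ) :
    ∃ z : V → ℝ, SmoothAlong d M z ∧ (∀ x ∈ M, 0 < z x) ∧
      ∀ x ∈ M, Vs x < Dsc d M h (fun y => t y - C / 2 * Real.log (z y)) x := by
  obtain ⟨z, hz, hpos, hsup⟩ := gs_aap hG (gs_sm_sub (gs_Dsc_sm hG.met hG.drift) hV) hC hγ hgap
  refine ⟨z, hz, hpos, fun x hx => ?_⟩
  rw [gs_Dsc_log hG.mfd hG.met hG.drift hz hpos (C / 2) hx]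
  have hzx := hpos x hx
  have h1 := hsup x hx
  have h2 : 0 ≤ gradSq d M h z x := gs_sq_nonneg hG.mfd hG.met hz hx
  have h3 : 0 ≤ (2 * (C / 2) - (C / 2) ^ 2) * gradSq d M h z x / z x ^ 2 := by
    apply div_nonneg _ (by positivity)
    apply mul_nonneg _ h2
    nlinarith
  have h4 : 0 < (-C * wlap d M h t z x + (Dsc d M h t x - Vs x) * z x) / z x := div_pos h1 hzx
  have h5 : (-C * wlap d M h t z x + (Dsc d M h t x - Vs x) * z x) / z x =
      Dsc d M h t x - 2 * (C / 2) * wlap d M h t z x / z x - Vs x := by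
    field_simp
    ring
  linarith

end meas

/-! ## `ss_super` -/

/-- **leaf GS-SPEC**: the spectral hypothesis for ambient test functions gives the gap for intrinsic test functions.
PLAN: `φ` a test function on `M`; `gs_extend` gives `φ'`; `hG.spec φ'`; on `M`: `φ' = φ`, `gradSq φ' = gradSq φ` (`gs_sq_congr`),
`Dsc (0) = scal` (`gs_Dsc_zero`); `wvol n M g 0 = vol n M g` (density `1` on `M`, `vol Mᶜ = 0` by `if_isVol_vol`); all integrands are
continuous with compact support in `M` (`gs_integrable`), so the integrals can be split: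
`∫ (4|dφ|² + (scal - 3/4) φ²) = ∫ (4|dφ|² + scal φ²) - (3/4) ∫ φ² ≥ (1/4) ∫ φ²`. -/
theorem gs_gap_of_spectral {n N : ℕ} (M : Set (E N)) (g : Ten (E N)) (hG : Good n M g) :
    GsGap n M g (fun _ => 0) 4 (fun x => Dsc n M g (fun _ => 0) x - 3 / 4) (1 / 4) := by
  have hgeo : GsGeo n M g (fun _ => 0) :=
    { mfd := hG.mfd, met := hG.met, drift := gs_sm_const 0, isVol := if_isVol_vol hG.mfd g }
  have hw : wvol n M g (fun _ => 0) = vol n M g := by
    unfold wvol
    have e : (M.indicator fun _ : E N => ENNReal.ofReal (Real.exp (-(0 : ℝ)))) = M.indicator 1 := by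
      rw [neg_zero, Real.exp_zero, ENNReal.ofReal_one]
      rfl
    rw [e, withDensity_indicator_one (if_measurableSet hG.mfd)]
    exact Measure.restrict_eq_self_of_ae_mem (by rw [ae_iff]; exact if_vol_compl hG.mfd g)
  intro φ hφ
  obtain ⟨φ', h1, h2, h3⟩ := gs_extend hG.mfd hφ
  have hs := hG.spec φ' h1 h2
  have hae : ∀ᵐ x ∂(vol n M g), x ∈ M := by
    rw [← hw]
    exact gs_ae_mem hgeo
  have e1 : ∫ x, φ' x ^ 2 ∂(vol n M g) = ∫ x, φ x * φ x ∂(vol n M g) := by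
    refine integral_congr_ae ?_
    filter_upwards [hae] with x hx
    rw [h3 x hx, sq]
  have e2 : ∫ x, (4 * gradSq n M g φ' x + scal n M g x * φ' x ^ 2) ∂(vol n M g) =
      ∫ x, (4 * gradIp n M g φ φ x + scal n M g x * (φ x * φ x)) ∂(vol n M g) := by
    refine integral_congr_ae ?_
    filter_upwards [hae] with x hx
    rw [h3 x hx, sq, gs_sq_congr (f' := φ) h3]
    rfl
  rw [e1, e2] at hs
  have I1 : Integrable (fun x => φ x * φ x) (vol n M g) := by
    rw [← hw]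
    exact gs_N_integrable hgeo hφ.1 hφ
  have I2 : Integrable (fun x => 4 * gradIp n M g φ φ x + scal n M g x * (φ x * φ x))
      (vol n M g) := by
    rw [← hw]
    exact gs_B_integrable hgeo (if_scal_smoothAlong hG.met) hφ.1 hφ
  have e3 : ∫ x, (4 * gradIp n M g φ φ x + (Dsc n M g (fun _ => 0) x - 3 / 4) * (φ x * φ x))
        ∂(vol n M g) =
      ∫ x, (4 * gradIp n M g φ φ x + scal n M g x * (φ x * φ x)) ∂(vol n M g) -
        3 / 4 * ∫ x, φ x * φ x ∂(vol n M g) := by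
    rw [← integral_const_mul, ← integral_sub I2 (I1.const_mul _)]
    refine integral_congr_ae ?_
    filter_upwards [hae] with x hx
    rw [gs_Dsc_zero hG.mfd hG.met hx]
    ring
  unfold gsN gsB
  rw [hw, e3]
  linarith

/-- S-A: positive supersolution, in logarithmic form (`ss_super` of `Top/Main.lean`). -/
theorem gs_ss_super {n N : ℕ} (M : Set (E N)) (g : Ten (E N)) (hG : Good n M g) :
    ∃ w : E N → ℝ, Drift n M g w (3 / 4) := by
  have hgeo : GsGeo n M g (fun _ => 0) :=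
    { mfd := hG.mfd, met := hG.met, drift := gs_sm_const 0, isVol := if_isVol_vol hG.mfd g }
  obtain ⟨z, hz, hpos, hb⟩ := gs_aap_drift (Vs := fun _ => 3 / 4) hgeo (gs_sm_const _)
    (by norm_num : (0 : ℝ) < 4) le_rfl (by norm_num : (0 : ℝ) < 1 / 4) (gs_gap_of_spectral M g hG)
  exact ⟨fun y => 0 - 4 / 2 * Real.log (z y),
    { mfd := hG.mfd, closed := hG.closed, conn := hG.conn, met := hG.met, proper := hG.proper
      smooth := gs_sm_sub (gs_sm_const 0) (gs_sm_smul _ (gs_sm_log hz hpos))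
      bound := fun x hx => (hb x hx).le }⟩

end Claimed.Agent.R315
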