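import Claimed.Agent.R315.Gs.Form
import Claimed.Agent.Lib.Sob.Api

/-!
# Row 315, package Gs, part 5: the chart level analysis

CHART LEVEL (no manifold): `G : rm_MF d` a metric matrix on the open set `U ⊆ E d`, `t W F : E d → ℝ` smooth on `U`,
`ρ = gsRho G t = e^{-t} √(det G)`.
* `gs_green_chart` (leaf GS-GREEN): `∫_U (⟨df,db⟩ + f Δ_t b) ρ = 0` if `f` has compact support in `U`;
* `gs_chart_cmp` (leaf GS-CMP): on a compact set `ρ`, `ρ⁻¹` are bounded and `|Df|² ≤ c |df|²_G ρ`;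
* `gs_chart_reg` (leaf GS-REG): `H¹_loc` limits of smooth functions which solve the equation weakly in the limit are smooth
  solutions (from `Lib/Sob/Api.lean`).
TRANSFER between `M` and a parametrisation:
* `gs_chart_l2`, `gs_chart_h1` (leaf GS-TRANS-A), `gs_B_chart`, `gs_N_chart` (leaf GS-TRANS-B).
Owner: helper209.
-/

set_option autoImplicit false
set_option maxSynthPendingDepth 6
set_option linter.unusedSectionVars false
open scoped ContDiff Topology ENNReal
open Claims.C0499 Set MeasureTheory Filter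
open Claimed.Agent.Lib

namespace Claimed.Agent.R315

/-- chart density of the weighted volume. -/
noncomputable def gsRho {d : ℕ} (G : rm_MF d) (t : E d → ℝ) (u : E d) : ℝ :=
  Real.exp (-t u) * Real.sqrt (G u).det

section chart

variable {d : ℕ} {G : rm_MF d} {U : Set (E d)} {t W F f b : E d → ℝ} {C : ℝ}

/-- the flux components `X_i = ρ ∑_j G^{ij} ∂_j b`. -/
noncomputable def gsX (G : rm_MF d) (t b : E d → ℝ) (i : Fin d) (w : E d) : ℝ :=
  Real.exp (- t w) * Real.sqrt (G w).det * ∑ j : Fin d, (G w)⁻¹ i j * pdiff b j w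

theorem gsX_smooth (hG : rm_Met G U) (ht : ContDiffOn ℝ ∞ t U) (hb : ContDiffOn ℝ ∞ b U)
    (i : Fin d) : ContDiffOn ℝ ∞ (gsX G t b i) U :=
  ((Real.contDiff_exp.comp_contDiffOn ht.neg).mul (rm_sqrtdet_smooth hG)).mul
    (ContDiffOn.sum fun j _ => (rm_inv_smooth hG i j).mul (rm_pdiff_smooth hG.opn hb j))

theorem gsRho_pos (hG : rm_Met G U) {u : E d} (hu : u ∈ U) : 0 < gsRho G t u :=
  mul_pos (Real.exp_pos _) (Real.sqrt_pos.2 (rm_det_pos hG hu))

theorem gsRho_smooth (hG : rm_Met G U) (ht : ContDiffOn ℝ ∞ t U) : ContDiffOn ℝ ∞ (gsRho G t) U :=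
  (Real.contDiff_exp.comp_contDiffOn ht.neg).mul (rm_sqrtdet_smooth hG)

/-- the integral over `U` of a partial derivative of a smooth function which vanishes off a compact subset of `U`. -/
theorem gs_integral_pdiff {h : E d → ℝ} (hU : IsOpen U) (hh : ContDiffOn ℝ ∞ h U) {K : Set (E d)}
    (hK : IsCompact K) (hKU : K ⊆ U) (h0 : ∀ u ∈ U, u ∉ K → h u = 0) (i : Fin d) :
    IntegrableOn (fun u => pdiff h i u) U ∧ ∫ u in U, pdiff h i u = 0 := by
  classical
  obtain ⟨Y, hY⟩ : ∃ Y : E d → ℝ, Y = U.indicator h := ⟨_, rfl⟩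
  have hY0 : ∀ u, u ∉ K → Y u = 0 := by
    intro u hu
    by_cases huU : u ∈ U
    · rw [hY, indicator_of_mem huU]; exact h0 u huU hu
    · rw [hY, indicator_of_notMem huU]
  have hYe : ∀ x ∈ U, Y =ᶠ[𝓝 x] h := by
    intro x hx
    filter_upwards [hU.mem_nhds hx] with y hy
    rw [hY, indicator_of_mem hy]
  have hYs : ContDiff ℝ ∞ Y := by
    rw [contDiff_iff_contDiffAt]
    intro x
    by_cases hx : x ∈ U
    · exact (hh.contDiffAt (hU.mem_nhds hx)).congr_of_eventuallyEq (hYe x hx)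
    · have hxK : x ∉ K := fun hk => hx (hKU hk)
      have : Y =ᶠ[𝓝 x] fun _ => 0 := by
        filter_upwards [hK.isClosed.isOpen_compl.mem_nhds hxK] with y hy
        exact hY0 y hy
      exact contDiffAt_const.congr_of_eventuallyEq this
  have hYc : HasCompactSupport Y := HasCompactSupport.intro hK hY0
  have hts : tsupport Y ⊆ K :=
    closure_minimal (fun u hu => by_contra fun hk => hu (hY0 u hk)) hK.isClosed
  have hpd : ∀ u, U.indicator (fun u => pdiff h i u) u = fderiv ℝ Y u (eb i) := by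
    intro u
    by_cases hu : u ∈ U
    · rw [indicator_of_mem hu, (hYe u hu).fderiv_eq]; rfl
    · rw [indicator_of_notMem hu, fderiv_of_notMem_tsupport ℝ (fun hk => hu (hKU (hts hk)))]; rfl
  have hc : Continuous (fun x => fderiv ℝ Y x (eb i)) :=
    (hYs.continuous_fderiv (by simp)).clm_apply continuous_const
  have hi : Integrable (fun x => fderiv ℝ Y x (eb i)) :=
    hc.integrable_of_hasCompactSupport (hYc.fderiv_apply (𝕜 := ℝ) _)
  constructor
  · rw [← integrable_indicator_iff hU.measurableSet]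
    exact hi.congr (Eventually.of_forall fun u => (hpd u).symm)
  · rw [← integral_indicator hU.measurableSet]
    simp only [hpd]
    have hi0 : Integrable Y := hYs.continuous.integrable_of_hasCompactSupport hYc
    have := integral_mul_fderiv_eq_neg_fderiv_mul_of_integrable (μ := (volume : Measure (E d)))
      (f := fun _ => (1 : ℝ)) (g := Y) (v := eb i) (by simp) (by simpa using hi)
      (by simpa using hi0) (fun x _ => differentiableAt_const _)
      (fun x _ => (hYs.differentiable (by simp)) x)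
    simpa using this

/-- pointwise divergence identity. -/
theorem gs_green_pointwise (hG : rm_Met G U) (ht : ContDiffOn ℝ ∞ t U) (hf : ContDiffOn ℝ ∞ f U)
    (hb : ContDiffOn ℝ ∞ b U) {u : E d} (hu : u ∈ U) :
    (gradIpC G f b u + f u * rm_dlapC G t b u) * gsRho G t u
      = ∑ i, pdiff (fun w => f w * gsX G t b i w) i u := by
  have hρ : gsRho G t u ≠ 0 := (gsRho_pos hG hu).ne'
  have e1 : ∀ i, pdiff (fun w => f w * gsX G t b i w) i u
      = pdiff f i u * gsX G t b i u + f u * pdiff (gsX G t b i) i u :=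
    fun i => rm_pdiff_mul (rm_da hG.opn hf hu) (rm_da hG.opn (gsX_smooth hG ht hb i) hu)
  have e2 : gradIpC G f b u * gsRho G t u = ∑ i, pdiff f i u * gsX G t b i u := by
    unfold gradIpC gsX gsRho
    rw [Finset.sum_mul]
    refine Finset.sum_congr rfl fun i _ => ?_
    rw [Finset.mul_sum, Finset.mul_sum, Finset.sum_mul]
    refine Finset.sum_congr rfl fun j _ => ?_
    ring
  have e3 : rm_dlapC G t b u * gsRho G t u = ∑ i, pdiff (gsX G t b i) i u := by
    rw [rm_dlap_div hG hu ht hb]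
    show (gsRho G t u)⁻¹ * (∑ i, pdiff (gsX G t b i) i u) * gsRho G t u = _
    field_simp
  simp only [e1, Finset.sum_add_distrib, ← Finset.mul_sum]
  rw [← e2, ← e3]
  ring

/-- Green's formula; only the product `f db` has to vanish off a compact set. -/
theorem gs_green_aux (hG : rm_Met G U) (ht : ContDiffOn ℝ ∞ t U) (hf : ContDiffOn ℝ ∞ f U)
    (hb : ContDiffOn ℝ ∞ b U) {K : Set (E d)} (hK : IsCompact K) (hKU : K ⊆ U)
    (h0 : ∀ u ∈ U, u ∉ K → ∀ j, f u * pdiff b j u = 0) :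
    ∫ u in U, (gradIpC G f b u + f u * rm_dlapC G t b u) * gsRho G t u = 0 := by
  have hfX : ∀ i, ContDiffOn ℝ ∞ (fun w => f w * gsX G t b i w) U :=
    fun i => hf.mul (gsX_smooth hG ht hb i)
  have h00 : ∀ i, ∀ u ∈ U, u ∉ K → f u * gsX G t b i u = 0 := by
    intro i u hu huK
    have : f u * gsX G t b i u = Real.exp (-t u) * Real.sqrt (G u).det *
        ∑ j, (G u)⁻¹ i j * (f u * pdiff b j u) := by
      unfold gsX
      rw [Finset.mul_sum, Finset.mul_sum, Finset.mul_sum]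
      refine Finset.sum_congr rfl fun j _ => ?_
      ring
    rw [this]
    simp [h0 u hu huK]
  have h1 := fun i => gs_integral_pdiff hG.opn (hfX i) hK hKU (h00 i) i
  rw [setIntegral_congr_fun hG.opn.measurableSet
    (fun u hu => gs_green_pointwise hG ht hf hb hu)]
  rw [integral_finsetSum _ (fun i _ => (h1 i).1)]
  exact Finset.sum_eq_zero fun i _ => (h1 i).2

/-- **leaf GS-GREEN**.  PLAN: `X i = ρ f ∑_j G^{ij} ∂_j b` is smooth on `U` and vanishes on `U \ K`; `Y i = U.indicator (X i)` is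
`ContDiff ℝ ∞` on `E d` with compact support (`contDiff_iff_contDiffAt`: near points of `U` it is `X i`, near points of `Kᶜ` it is `0`);
`∫ ∂_i (Y i) = 0` (`integral_eq_zero_of_hasCompactSupport`-type statement: apply
`integral_mul_fderiv_eq_neg_fderiv_mul_of_integrable` with the constant function `1` times a cutoff, or Fubini + FTC;
see also `Sob.isWeakSol_of_classical`).  On `U`: `∑_i ∂_i (X i) = ρ (⟨df,db⟩ + f Δ_t b)` by Leibniz and `rm_dlap_div`. -/
theorem gs_green_chart (hG : rm_Met G U) (ht : ContDiffOn ℝ ∞ t U) (hf : ContDiffOn ℝ ∞ f U)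
    (hb : ContDiffOn ℝ ∞ b U) {K : Set (E d)} (hK : IsCompact K) (hKU : K ⊆ U)
    (h0 : ∀ u ∈ U, u ∉ K → f u = 0) :
    ∫ u in U, (gradIpC G f b u + f u * rm_dlapC G t b u) * gsRho G t u = 0 :=
  gs_green_aux hG ht hf hb hK hKU (fun u hu huK j => by rw [h0 u hu huK, zero_mul])

/-- Riesz representation on `E d` in coordinates. -/
theorem gsc_dual {d : ℕ} (L : E d →L[ℝ] ℝ) : ∃ ξ : E d, ‖ξ‖ = ‖L‖ ∧ ∀ i, ξ i = L (eb i) := by
  refine ⟨(InnerProductSpace.toDual ℝ (E d)).symm L, LinearIsometryEquiv.norm_map _ _, fun i => ?_⟩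
  rw [← InnerProductSpace.toDual_symm_apply (𝕜 := ℝ) (x := eb i) (y := L),
    EuclideanSpace.inner_single_right]
  simp

/-- uniform lower bound of the form `G⁻¹` on a compact set. -/
theorem gsc_form_lower (hG : rm_Met G U) {K : Set (E d)} (hK : IsCompact K) (hKU : K ⊆ U) :
    ∃ C : ℝ, 0 ≤ C ∧ ∀ u ∈ K, ∀ ξ : E d, ‖ξ‖ ^ 2 ≤ C * ∑ i, ∑ j, (G u)⁻¹ i j * ξ i * ξ j := by
  obtain ⟨S, hSdef⟩ : ∃ S : Set (E d × E d), S = K ×ˢ Metric.sphere (0 : E d) 1 := ⟨_, rfl⟩
  have hS : IsCompact S := hSdef ▸ hK.prod (isCompact_sphere 0 1)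
  obtain ⟨q, hqdef⟩ : ∃ q : E d × E d → ℝ,
      q = fun p => ∑ i, ∑ j, (G p.1)⁻¹ i j * p.2 i * p.2 j := ⟨_, rfl⟩
  have hq : ContinuousOn q S := by
    rw [hqdef]
    refine continuousOn_finsetSum _ fun i _ => continuousOn_finsetSum _ fun j _ => ?_
    have h1 : ContinuousOn (fun p : E d × E d => (G p.1)⁻¹ i j) S :=
      ((rm_inv_smooth hG i j).continuousOn.mono hKU).comp continuousOn_fst
        (fun p hp => by rw [hSdef] at hp; exact hp.1)
    have h2 : ∀ i : Fin d, Continuous (fun p : E d × E d => p.2 i) := fun i =>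
      (EuclideanSpace.proj i : E d →L[ℝ] ℝ).continuous.comp continuous_snd
    exact (h1.mul (h2 i).continuousOn).mul (h2 j).continuousOn
  have hpos : ∀ p ∈ S, 0 < q p := by
    rintro ⟨u, ξ⟩ hp
    rw [hSdef] at hp
    obtain ⟨hu, hξ⟩ := hp
    have hne : (fun i => ξ i) ≠ 0 := by
      intro h0
      have h1 : ξ = 0 := by
        ext i
        exact congrFun h0 i
      simp only [h1] at hξ
      simp at hξ
    have h2 := (rm_inv_pos hG (hKU hu)).dotProduct_mulVec_pos hne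
    simp only [star_trivial] at h2
    have e : q (u, ξ) = (fun i => ξ i) ⬝ᵥ ((G u)⁻¹).mulVec (fun i => ξ i) := by
      rw [hqdef]
      simp only [dotProduct, Matrix.mulVec, Finset.mul_sum]
      exact Finset.sum_congr rfl fun i _ => Finset.sum_congr rfl fun j _ => by ring
    rw [e]
    exact h2
  obtain ⟨C, hC⟩ := hS.exists_bound_of_continuousOn (hq.inv₀ fun p hp => (hpos p hp).ne')
  refine ⟨max C 0, le_max_right _ _, fun u hu ξ => ?_⟩
  by_cases hξ : ξ = 0
  · subst hξ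
    simp
  · have hn : 0 < ‖ξ‖ := norm_pos_iff.2 hξ
    have hmem : (u, ‖ξ‖⁻¹ • ξ) ∈ S := by
      rw [hSdef]
      refine ⟨hu, ?_⟩
      rw [mem_sphere_zero_iff_norm, norm_smul, norm_inv, norm_norm, inv_mul_cancel₀ hn.ne']
    have h1 := hC _ hmem
    have h2 := hpos _ hmem
    rw [Pi.inv_apply, Real.norm_eq_abs, abs_of_pos (inv_pos.2 h2)] at h1
    have h3 : 1 ≤ max C 0 * q (u, ‖ξ‖⁻¹ • ξ) := by
      have h4 : 1 ≤ C * q (u, ‖ξ‖⁻¹ • ξ) := by rwa [inv_le_iff_one_le_mul₀ h2] at h1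
      exact h4.trans (mul_le_mul_of_nonneg_right (le_max_left _ _) h2.le)
    have e : q (u, ‖ξ‖⁻¹ • ξ) = (‖ξ‖ ^ 2)⁻¹ * ∑ i, ∑ j, (G u)⁻¹ i j * ξ i * ξ j := by
      rw [hqdef]
      simp only [PiLp.smul_apply, smul_eq_mul, Finset.mul_sum]
      refine Finset.sum_congr rfl fun i _ => Finset.sum_congr rfl fun j _ => ?_
      field_simp
    rw [e] at h3
    have hn2 : 0 < ‖ξ‖ ^ 2 := by positivity
    calc ‖ξ‖ ^ 2 = ‖ξ‖ ^ 2 * 1 := (mul_one _).symm
      _ ≤ ‖ξ‖ ^ 2 * (max C 0 * ((‖ξ‖ ^ 2)⁻¹ * ∑ i, ∑ j, (G u)⁻¹ i j * ξ i * ξ j)) :=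
          mul_le_mul_of_nonneg_left h3 hn2.le
      _ = max C 0 * ∑ i, ∑ j, (G u)⁻¹ i j * ξ i * ξ j := by
          field_simp

theorem gsc_rho_continuousOn (hG : rm_Met G U) (ht : ContDiffOn ℝ ∞ t U) :
    ContinuousOn (gsRho G t) U :=
  (Real.continuous_exp.comp_continuousOn ht.continuousOn.neg).mul
    (rm_sqrtdet_smooth hG).continuousOn

theorem gsc_rho_pos (hG : rm_Met G U) {u : E d} (hu : u ∈ U) : 0 < gsRho G t u :=
  mul_pos (Real.exp_pos _) (Real.sqrt_pos.2 (rm_det_pos hG hu))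

/-- **leaf GS-CMP**.  PLAN: `ρ` is continuous and positive on the compact `K`; the smallest eigenvalue of `G⁻¹`:
`(u, ξ) ↦ ξᵀ G(u)⁻¹ ξ` is continuous and positive on `K ×` unit sphere, hence `≥ λ > 0`; `‖fderiv ℝ f u‖² = ∑_i (pdiff f i u)²`
(operator norm on the Euclidean space `E d`; `≤` suffices: Cauchy-Schwarz). -/
theorem gs_chart_cmp (hG : rm_Met G U) (ht : ContDiffOn ℝ ∞ t U) {K : Set (E d)}
    (hK : IsCompact K) (hKU : K ⊆ U) :
    ∃ c : ℝ, 0 < c ∧ ∀ u ∈ K, 1 ≤ c * gsRho G t u ∧ gsRho G t u ≤ c ∧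
      ∀ f : E d → ℝ, ‖fderiv ℝ f u‖ ^ 2 ≤ c * (gradSqC G f u * gsRho G t u) := by
  have hρc := gsc_rho_continuousOn hG ht
  obtain ⟨C₁, h1⟩ := hK.exists_bound_of_continuousOn
    ((hρc.mono hKU).inv₀ fun u hu => (gsc_rho_pos (t := t) hG (hKU hu)).ne')
  obtain ⟨C₂, h2⟩ := hK.exists_bound_of_continuousOn (hρc.mono hKU)
  obtain ⟨C₃, h30, h3⟩ := gsc_form_lower hG hK hKU
  refine ⟨|C₁| + |C₂| + C₃ * |C₁| + 1, by positivity, fun u hu => ?_⟩
  have hp : 0 < gsRho G t u := gsc_rho_pos hG (hKU hu)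
  have a1 : (gsRho G t u)⁻¹ ≤ |C₁| := by
    have := h1 u hu
    rw [Pi.inv_apply, Real.norm_eq_abs, abs_of_pos (inv_pos.2 hp)] at this
    exact this.trans (le_abs_self _)
  have a1' : 1 ≤ |C₁| * gsRho G t u := by rwa [inv_le_iff_one_le_mul₀ hp] at a1
  have a2 : gsRho G t u ≤ |C₂| := by
    have := h2 u hu
    rw [Real.norm_eq_abs, abs_of_pos hp] at this
    exact this.trans (le_abs_self _)
  have b1 := abs_nonneg C₁
  have b2 := abs_nonneg C₂
  have b3 := mul_nonneg h30 b1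
  refine ⟨?_, by linarith, fun f => ?_⟩
  · exact a1'.trans (mul_le_mul_of_nonneg_right (by linarith) hp.le)
  · obtain ⟨ξ, hξn, hξ⟩ := gsc_dual (fderiv ℝ f u)
    have h4 := h3 u hu ξ
    have e : ∑ i, ∑ j, (G u)⁻¹ i j * ξ i * ξ j = gradSqC G f u := by
      unfold gradSqC pdiff
      simp only [hξ]
    rw [e, hξn] at h4
    have hq0 : 0 ≤ gradSqC G f u := rm_sq_nonneg hG (hKU hu) f
    calc ‖fderiv ℝ f u‖ ^ 2 ≤ C₃ * gradSqC G f u := h4
      _ = C₃ * gradSqC G f u * 1 := (mul_one _).symm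
      _ ≤ C₃ * gradSqC G f u * (|C₁| * gsRho G t u) :=
          mul_le_mul_of_nonneg_left a1' (mul_nonneg h30 hq0)
      _ = (C₃ * |C₁|) * (gradSqC G f u * gsRho G t u) := by ring
      _ ≤ (|C₁| + |C₂| + C₃ * |C₁| + 1) * (gradSqC G f u * gsRho G t u) :=
          mul_le_mul_of_nonneg_right (by linarith) (mul_nonneg hq0 hp.le)

/-! ### regularity -/

/-- the principal part `ξ ↦ C ρ G⁻¹ ξ`. -/
noncomputable def gsA (G : rm_MF d) (t : E d → ℝ) (C : ℝ) (x : E d) : (E d →L[ℝ] ℝ) →L[ℝ] E d :=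
  (C * gsRho G t x) • ∑ i : Fin d, ∑ j : Fin d,
    ((G x)⁻¹ i j) • ((ContinuousLinearMap.apply ℝ ℝ (eb j : E d)).smulRight (eb i : E d))

theorem gsA_apply (η ξ : E d →L[ℝ] ℝ) (x : E d) :
    η (gsA G t C x ξ) = C * gsRho G t x * ∑ i, ∑ j, (G x)⁻¹ i j * η (eb i) * ξ (eb j) := by
  simp only [gsA, _root_.smul_apply, _root_.sum_apply, ContinuousLinearMap.smulRight_apply,
    ContinuousLinearMap.apply_apply, map_smul, map_sum, smul_eq_mul]
  congr 1
  refine Finset.sum_congr rfl fun i _ => Finset.sum_congr rfl fun j _ => ?_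
  ring

theorem gsA_fderiv (f b : E d → ℝ) (x : E d) :
    fderiv ℝ f x (gsA G t C x (fderiv ℝ b x)) = C * gradIpC G f b x * gsRho G t x := by
  rw [gsA_apply]
  unfold gradIpC pdiff
  ring

theorem gsA_smooth (hG : rm_Met G U) (ht : ContDiffOn ℝ ∞ t U) :
    ContDiffOn ℝ ∞ (gsA G t C) U := by
  show ContDiffOn ℝ ∞ (fun x => (C * gsRho G t x) • ∑ i : Fin d, ∑ j : Fin d,
    ((G x)⁻¹ i j) • ((ContinuousLinearMap.apply ℝ ℝ (eb j : E d)).smulRight (eb i : E d))) U
  refine ContDiffOn.smul (contDiffOn_const.mul (gsRho_smooth hG ht)) ?_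
  exact ContDiffOn.sum fun i _ => ContDiffOn.sum fun j _ =>
    (rm_inv_smooth hG i j).smul contDiffOn_const

theorem gsA_pos (hG : rm_Met G U) (hC : 0 < C) {x : E d} (hx : x ∈ U) (ξ : E d →L[ℝ] ℝ)
    (hξ : ξ ≠ 0) : 0 < ξ (gsA G t C x ξ) := by
  have e : ξ (gsA G t C x ξ) = C * gradSqC G ξ x * gsRho G t x := by
    have := gsA_fderiv (G := G) (t := t) (C := C) (⇑ξ) (⇑ξ) x
    rw [ξ.fderiv] at this
    rw [this]
    rfl
  rw [e]
  have h1 : 0 ≤ gradSqC G ξ x := rm_sq_nonneg hG hx _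
  have h2 : gradSqC G ξ x ≠ 0 := by
    intro h0
    rw [rm_sq_eq_zero hG hx] at h0
    apply hξ
    have h0' : ∀ i, ξ (eb i) = 0 := by
      intro i
      have := h0 i
      unfold pdiff at this
      rwa [ξ.fderiv] at this
    ext v
    have hv : v = ∑ i, v i • (eb i : E d) := by
      ext j
      simp [eb, Pi.single_apply]
    rw [hv, map_sum]
    simp [h0']
  have h3 := gsRho_pos (t := t) hG hx
  have h4 : 0 < gradSqC G ξ x := lt_of_le_of_ne h1 (Ne.symm h2)
  positivity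

theorem gs_test_pdiff {φ : E d → ℝ} {x : E d} (hx : x ∉ tsupport φ) (j : Fin d) :
    pdiff φ j x = 0 := by
  unfold pdiff
  rw [fderiv_of_notMem_tsupport ℝ hx]
  rfl

theorem gs_ip_test_right {φ : E d → ℝ} {x : E d} (hx : x ∉ tsupport φ) (f : E d → ℝ) :
    gradIpC G f φ x = 0 := by
  unfold gradIpC
  simp [gs_test_pdiff hx]

theorem gs_ip_test_left {φ : E d → ℝ} {x : E d} (hx : x ∉ tsupport φ) (f : E d → ℝ) :
    gradIpC G φ f x = 0 := by
  unfold gradIpC
  simp [gs_test_pdiff hx]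

/-- the weak equation in the limit. -/
theorem gs_reg_weak (hG : rm_Met G U) (ht : ContDiffOn ℝ ∞ t U) (hW : ContDiffOn ℝ ∞ W U)
    {u : E d → ℝ} {un : ℕ → E d → ℝ}
    (hun : ∀ n, ContDiffOn ℝ ∞ (un n) U) (hu : Sob.L2Loc volume U u)
    {Gd : E d → E d →L[ℝ] ℝ} (hGd2 : Sob.L2Loc volume U Gd)
    (h1 : ∀ K : Set (E d), IsCompact K → K ⊆ U →
      Tendsto (fun n => eLpNorm (fun x => un n x - u x) 2 (volume.restrict K)) atTop (𝓝 0))
    (hlim : ∀ K : Set (E d), IsCompact K → K ⊆ U →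
      Tendsto (fun n => eLpNorm (fun x => fderiv ℝ (un n) x - Gd x) 2 (volume.restrict K))
        atTop (𝓝 0))
    (h3 : ∀ b : E d → ℝ, Sob.IsTest U b →
      Tendsto (fun n => ∫ x in U, (C * gradIpC G (un n) b x + W x * (un n x * b x)) * gsRho G t x)
        atTop (𝓝 (∫ x in U, (F x * b x) * gsRho G t x)))
    {φ : E d → ℝ} (hφ : Sob.IsTest U φ) :
    (∫ x in tsupport φ, Gd x (gsA G t C x (fderiv ℝ φ x)))
      + ∫ x in tsupport φ, u x • (W x * φ x * gsRho G t x)
      = ∫ x in tsupport φ, (F x * φ x) * gsRho G t x := by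
  have hU := hG.opn
  have hK : IsCompact (tsupport φ) := hφ.compact
  have hKU : tsupport φ ⊆ U := hφ.supp
  have hAφ : ContinuousOn (fun x => gsA G t C x (fderiv ℝ φ x)) U :=
    (gsA_smooth hG ht).continuousOn.clm_apply
      (hφ.smooth.continuous_fderiv (by simp)).continuousOn
  have hWφ : ContinuousOn (fun x => W x * φ x * gsRho G t x) U :=
    (hW.continuousOn.mul hφ.smooth.continuous.continuousOn).mul (gsRho_smooth hG ht).continuousOn
  have hdun : ∀ n, ContinuousOn (fderiv ℝ (un n)) U := fun n =>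
    (hun n).continuousOn_fderiv_of_isOpen hU (by simp)
  have l1 := Sob.tendsto_setIntegral_apply_clm (μ := volume) (U := tsupport φ)
    (w := fun x => gsA G t C x (fderiv ℝ φ x)) (Tn := fun n => fderiv ℝ (un n)) (T := Gd)
    (Sob.l2Loc_of_continuousOn hAφ _ hK hKU)
    (fun n => Sob.l2Loc_of_continuousOn (hdun n) _ hK hKU) (hGd2 _ hK hKU) (hlim _ hK hKU)
  have l2 := Sob.tendsto_setIntegral_smul (μ := volume) (U := tsupport φ)
    (u := fun x => W x * φ x * gsRho G t x) (φn := un) (φ := u)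
    (Sob.l2Loc_of_continuousOn hWφ _ hK hKU)
    (fun n => Sob.l2Loc_of_continuousOn (hun n).continuousOn _ hK hKU) (hu _ hK hKU)
    (h1 _ hK hKU)
  have e4 : ∫ x in U, (F x * φ x) * gsRho G t x = ∫ x in tsupport φ, (F x * φ x) * gsRho G t x :=
    setIntegral_eq_of_subset_of_forall_sdiff_eq_zero hU.measurableSet hKU (fun x hx => by
      rw [image_eq_zero_of_notMem_tsupport hx.2]; ring)
  rw [← e4]
  refine tendsto_nhds_unique (l1.add l2) ((h3 φ hφ).congr fun n => ?_)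
  have i1 : IntegrableOn (fun x => fderiv ℝ (un n) x (gsA G t C x (fderiv ℝ φ x))) (tsupport φ) :=
    (((hdun n).clm_apply hAφ).mono hKU).integrableOn_compact hK
  have i2 : IntegrableOn (fun x => un n x • (W x * φ x * gsRho G t x)) (tsupport φ) :=
    (((hun n).continuousOn.smul hWφ).mono hKU).integrableOn_compact hK
  rw [← integral_add i1 i2,
    setIntegral_eq_of_subset_of_forall_sdiff_eq_zero hU.measurableSet hKU (fun x hx => by
      rw [image_eq_zero_of_notMem_tsupport hx.2, gs_ip_test_right hx.2]; ring)]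
  refine setIntegral_congr_fun hK.measurableSet (fun x _ => ?_)
  simp only [gsA_fderiv, smul_eq_mul]
  ring

/-- **leaf GS-REG**: regularity.
PLAN. (1) `Sob.exists_hasWeakFDeriv_of_cauchy` (with `h1`, `h2`) gives `Gd` with `HasWeakFDeriv volume U u Gd`, `L2Loc`, and
`fderiv (un n) → Gd` in `L²(K)`.
(2) `A x ξ = C ρ(x) ∑_{ij} G(x)⁻¹ i j ξ(e_j) e_i` (smooth on `U`, `ξ (A x ξ) = C ρ ξᵀG⁻¹ξ > 0`).  For a test function `b`:
`fderiv (un n) x (A x (fderiv b x)) = C ρ gradIpC G (un n) b x`; pass to the limit in `h3` on `K = tsupport b` (Cauchy-Schwarz in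
`L²(K)`, the coefficients are bounded on `K`): `∫ Gd x (A x (fderiv b x)) = ∫ b (F ρ - W ρ u)`, i.e.
`Sob.IsWeakSol volume U A Gd (fun x => F x ρ x + 0 + c x (u x)) (fun x => 0 + 0)` with `c x = -(W x ρ x) • id`.
(3) `Sob.smooth_of_weakSol` gives `v` smooth on `U`, `u = v` a.e. on `U`.
(4) the equation for `v`: by `gs_green_chart` (with `f := b`, `b := un n`... and once more with `v`):
`∫_U (C ⟨d un, db⟩ + W un b) ρ = ∫_U un (-C Δ_t b + W b) ρ → ∫_U v (-C Δ_t b + W b) ρ = ∫_U (-C Δ_t v + W v) b ρ`;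
so `∫_U ((-C Δ_t v + W v - F) ρ) b = 0` for all test functions; `IsOpen.ae_eq_zero_of_integral_contDiff_smul_eq_zero` + continuity
(`Sob.eqOn_of_ae_eq`) + `ρ > 0`. -/
theorem gs_chart_reg (hG : rm_Met G U) (ht : ContDiffOn ℝ ∞ t U) (hW : ContDiffOn ℝ ∞ W U)
    (hF : ContDiffOn ℝ ∞ F U) (hC : 0 < C) {u : E d → ℝ} {un : ℕ → E d → ℝ}
    (hun : ∀ n, ContDiffOn ℝ ∞ (un n) U) (hu : Sob.L2Loc volume U u)
    (h1 : ∀ K : Set (E d), IsCompact K → K ⊆ U →
      Tendsto (fun n => eLpNorm (fun x => un n x - u x) 2 (volume.restrict K)) atTop (𝓝 0))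
    (h2 : ∀ K : Set (E d), IsCompact K → K ⊆ U → ∀ ε : ℝ≥0∞, 0 < ε → ∃ N : ℕ, ∀ n m : ℕ,
      N ≤ n → N ≤ m →
      eLpNorm (fun x => fderiv ℝ (un n) x - fderiv ℝ (un m) x) 2 (volume.restrict K) ≤ ε)
    (h3 : ∀ b : E d → ℝ, Sob.IsTest U b →
      Tendsto (fun n => ∫ x in U, (C * gradIpC G (un n) b x + W x * (un n x * b x)) * gsRho G t x)
        atTop (𝓝 (∫ x in U, (F x * b x) * gsRho G t x))) :
    ∃ v : E d → ℝ, ContDiffOn ℝ ∞ v U ∧ (∀ᵐ x ∂(volume.restrict U), u x = v x) ∧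
      ∀ x ∈ U, -C * rm_dlapC G t v x + W x * v x = F x := by
  have hU := hG.opn
  have hρ := gsRho_smooth hG ht
  obtain ⟨Gd, hGd, hGd2, hlim⟩ := Sob.exists_hasWeakFDeriv_of_cauchy volume hU
    (fun n => (hun n).of_le (by simp)) hu h1 h2
  have hweak : ∀ φ : E d → ℝ, Sob.IsTest U φ → _ :=
    fun φ hφ => gs_reg_weak hG ht hW hun hu hGd2 h1 hlim h3 (φ := φ) hφ
  -- continuity facts for a test function
  have hWφ : ∀ φ : E d → ℝ, Sob.IsTest U φ →
      ContinuousOn (fun x => W x * φ x * gsRho G t x) U := fun φ hφ =>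
    (hW.continuousOn.mul hφ.smooth.continuous.continuousOn).mul hρ.continuousOn
  have hFφ : ∀ φ : E d → ℝ, Sob.IsTest U φ →
      ContinuousOn (fun x => (F x * φ x) * gsRho G t x) U := fun φ hφ =>
    (hF.continuousOn.mul hφ.smooth.continuous.continuousOn).mul hρ.continuousOn
  have hsol : Sob.IsWeakSol volume U (gsA G t C) Gd
      (fun x => F x * gsRho G t x + (0 : (E d →L[ℝ] ℝ) →L[ℝ] ℝ) (Gd x)
        + (-(W x * gsRho G t x) • ContinuousLinearMap.id ℝ ℝ) (u x))
      (fun x => (0 : (E d →L[ℝ] ℝ) →L[ℝ] ℝ)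
        + (0 : ℝ →L[ℝ] ((E d →L[ℝ] ℝ) →L[ℝ] ℝ)) (u x)) := by
    intro φ hφ
    have hK : IsCompact (tsupport φ) := hφ.compact
    have hKU : tsupport φ ⊆ U := hφ.supp
    have e1 : ∫ x, Gd x (gsA G t C x (fderiv ℝ φ x))
        = ∫ x in tsupport φ, Gd x (gsA G t C x (fderiv ℝ φ x)) :=
      (setIntegral_eq_integral_of_forall_compl_eq_zero (fun x hx => by
        rw [fderiv_of_notMem_tsupport ℝ hx, map_zero, map_zero])).symm
    have e2 : ∫ x, φ x • (F x * gsRho G t x + (0 : (E d →L[ℝ] ℝ) →L[ℝ] ℝ) (Gd x)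
          + (-(W x * gsRho G t x) • ContinuousLinearMap.id ℝ ℝ) (u x))
        = ∫ x in tsupport φ, ((F x * φ x) * gsRho G t x - u x • (W x * φ x * gsRho G t x)) := by
      rw [← setIntegral_eq_integral_of_forall_compl_eq_zero (s := tsupport φ) (fun x hx => by
        rw [image_eq_zero_of_notMem_tsupport hx, zero_smul])]
      refine setIntegral_congr_fun hK.measurableSet (fun x _ => ?_)
      simp only [_root_.zero_apply, _root_.smul_apply, ContinuousLinearMap.id_apply, smul_eq_mul]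
      ring
    have i1 : IntegrableOn (fun x => (F x * φ x) * gsRho G t x) (tsupport φ) :=
      ((hFφ φ hφ).mono hKU).integrableOn_compact hK
    have i2 : IntegrableOn (fun x => u x • (W x * φ x * gsRho G t x)) (tsupport φ) :=
      (Sob.l2Le_l2n (hu _ hK hKU)).integrableOn_smul
        (Sob.l2Le_l2n (Sob.l2Loc_of_continuousOn (hWφ φ hφ) _ hK hKU))
    have e3 : ∫ x, ((0 : (E d →L[ℝ] ℝ) →L[ℝ] ℝ)
        + (0 : ℝ →L[ℝ] ((E d →L[ℝ] ℝ) →L[ℝ] ℝ)) (u x)) (fderiv ℝ φ x) = 0 := by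
      simp
    rw [e1, e2, e3, integral_sub i1 i2, ← hweak φ hφ]
    ring
  obtain ⟨v, hv, huv⟩ := Sob.smooth_of_weakSol volume hU (A := gsA G t C) (b := fun _ => 0)
    (c := fun x => -(W x * gsRho G t x) • ContinuousLinearMap.id ℝ ℝ) (d := fun _ => 0)
    (f := fun x => F x * gsRho G t x) (H := fun _ => 0) (gsA_smooth hG ht) contDiffOn_const
    ((hW.mul hρ).neg.smul contDiffOn_const) contDiffOn_const (hF.mul hρ) contDiffOn_const
    (fun x hx ξ hξ => gsA_pos hG hC hx ξ hξ) hGd hu hGd2 hsol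
  refine ⟨v, hv, huv, ?_⟩
  have hGv : ∀ᵐ x ∂(volume.restrict U), Gd x = fderiv ℝ v x :=
    Sob.HasWeakFDeriv.unique hU hGd
      ((Sob.hasWeakFDeriv_of_contDiffOn volume hU (hv.of_le (by simp))).congr_ae hU
        (huv.mono fun x hx => hx.symm) (Eventually.of_forall fun _ => rfl))
  have hdl : ContinuousOn (fun x => rm_dlapC G t v x) U :=
    ((rm_lapC_smooth hG hv).sub (rm_gradIpC_smooth hG ht hv)).continuousOn
  have hRc : ContinuousOn
      (fun x => (-C * rm_dlapC G t v x + W x * v x - F x) * gsRho G t x) U :=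
    (((continuousOn_const.mul hdl).add (hW.continuousOn.mul hv.continuousOn)).sub
      hF.continuousOn).mul hρ.continuousOn
  have hzero : ∀ φ : E d → ℝ, ContDiff ℝ ∞ φ → HasCompactSupport φ → tsupport φ ⊆ U →
      ∫ x, φ x • ((-C * rm_dlapC G t v x + W x * v x - F x) * gsRho G t x) = 0 := by
    intro φ hφ1 hφ2 hφ3
    have hφ : Sob.IsTest U φ := ⟨hφ1, hφ2, hφ3⟩
    have hK : IsCompact (tsupport φ) := hφ2
    have hKU : tsupport φ ⊆ U := hφ3
    have w1 := hweak φ hφ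
    have r1 : ∫ x in tsupport φ, Gd x (gsA G t C x (fderiv ℝ φ x))
        = ∫ x in tsupport φ, fderiv ℝ v x (gsA G t C x (fderiv ℝ φ x)) :=
      integral_congr_ae ((ae_restrict_of_ae_restrict_of_subset hKU hGv).mono fun x hx => by
        simp only [hx])
    have r2 : ∫ x in tsupport φ, u x • (W x * φ x * gsRho G t x)
        = ∫ x in tsupport φ, v x • (W x * φ x * gsRho G t x) :=
      integral_congr_ae ((ae_restrict_of_ae_restrict_of_subset hKU huv).mono fun x hx => by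
        simp only [hx])
    rw [r1, r2] at w1
    have g1 := gs_green_chart hG ht hφ1.contDiffOn hv hK hKU
      (fun x _ hx => image_eq_zero_of_notMem_tsupport hx)
    rw [setIntegral_eq_of_subset_of_forall_sdiff_eq_zero hU.measurableSet hKU (fun x hx => by
      rw [image_eq_zero_of_notMem_tsupport hx.2, gs_ip_test_left hx.2]; ring)] at g1
    have hdv : ContinuousOn (fderiv ℝ v) U := hv.continuousOn_fderiv_of_isOpen hU (by simp)
    have hAφ : ContinuousOn (fun x => gsA G t C x (fderiv ℝ φ x)) U :=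
      (gsA_smooth hG ht).continuousOn.clm_apply (hφ1.continuous_fderiv (by simp)).continuousOn
    have i1 : IntegrableOn
        (fun x => (gradIpC G φ v x + φ x * rm_dlapC G t v x) * gsRho G t x) (tsupport φ) :=
      (((((rm_gradIpC_smooth hG hφ1.contDiffOn hv).continuousOn.add
        (hφ1.continuous.continuousOn.mul hdl)).mul hρ.continuousOn)).mono hKU).integrableOn_compact
          hK
    have i2 : IntegrableOn (fun x => fderiv ℝ v x (gsA G t C x (fderiv ℝ φ x))) (tsupport φ) :=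
      ((hdv.clm_apply hAφ).mono hKU).integrableOn_compact hK
    have i3 : IntegrableOn (fun x => v x • (W x * φ x * gsRho G t x)) (tsupport φ) :=
      ((hv.continuousOn.smul (hWφ φ hφ)).mono hKU).integrableOn_compact hK
    have i4 : IntegrableOn (fun x => (F x * φ x) * gsRho G t x) (tsupport φ) :=
      ((hFφ φ hφ).mono hKU).integrableOn_compact hK
    have i23 : IntegrableOn (fun x => fderiv ℝ v x (gsA G t C x (fderiv ℝ φ x))
        + v x • (W x * φ x * gsRho G t x)) (tsupport φ) := i2.add i3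
    have i234 : IntegrableOn (fun x => fderiv ℝ v x (gsA G t C x (fderiv ℝ φ x))
        + v x • (W x * φ x * gsRho G t x) - (F x * φ x) * gsRho G t x) (tsupport φ) := i23.sub i4
    have i1' : IntegrableOn (fun x => -C * ((gradIpC G φ v x + φ x * rm_dlapC G t v x)
        * gsRho G t x)) (tsupport φ) := i1.const_mul (-C)
    rw [← setIntegral_eq_integral_of_forall_compl_eq_zero (s := tsupport φ) (fun x hx => by
        rw [image_eq_zero_of_notMem_tsupport hx, zero_smul])]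
    have e : ∫ x in tsupport φ, φ x • ((-C * rm_dlapC G t v x + W x * v x - F x) * gsRho G t x)
        = ∫ x in tsupport φ, (-C * ((gradIpC G φ v x + φ x * rm_dlapC G t v x) * gsRho G t x)
          + (fderiv ℝ v x (gsA G t C x (fderiv ℝ φ x)) + v x • (W x * φ x * gsRho G t x)
            - (F x * φ x) * gsRho G t x)) := by
      refine setIntegral_congr_fun hK.measurableSet (fun x hx => ?_)
      simp only [gsA_fderiv, smul_eq_mul, rm_ip_comm hG (hKU hx) v φ]
      ring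
    rw [e, integral_add i1' i234, integral_const_mul, integral_sub i23 i4, integral_add i2 i3, g1,
      w1]
    ring
  have hae := hU.ae_eq_zero_of_integral_contDiff_smul_eq_zero
    (hRc.locallyIntegrableOn hU.measurableSet) hzero
  have hEq : EqOn (fun x => (-C * rm_dlapC G t v x + W x * v x - F x) * gsRho G t x)
      (fun _ => 0) U :=
    Sob.eqOn_of_ae_eq volume hU hRc continuousOn_const
      ((ae_restrict_iff' hU.measurableSet).2 hae)
  intro x hx
  have h5 := hEq hx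
  simp only at h5
  have h6 := (gsRho_pos (t := t) hG hx).ne'
  have h7 : -C * rm_dlapC G t v x + W x * v x - F x = 0 := by
    rcases mul_eq_zero.1 h5 with h | h
    · exact h
    · exact absurd h h6
  linarith

end chart

/-! ## transfer -/

variable {V : Type} [NormedAddCommGroup V] [NormedSpace ℝ V] [FiniteDimensional ℝ V]
  [MeasurableSpace V] [BorelSpace V]
variable {d : ℕ} {M : Set V} {h : Ten V} {t : V → ℝ} {ψ : E d → V} {U : Set (E d)}
variable {φ W F : V → ℝ} {C : ℝ}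

theorem gs_ctRho_eq (h : Ten V) (t : V → ℝ) (ψ : E d → V) :
    ctRho h t ψ = gsRho (cm h ψ) (fun w => t (ψ w)) := rfl

/-- **leaf GS-TRANS-A** (1): `L²(K, du) ≤ c L²(ψ K, dμ)`, for arbitrary functions.
PLAN: `gs_lintegral_chart` with `A = K`, `f = ‖·‖ₑ²`, and `1 ≤ c ρ` on `K` (`gs_chart_cmp`). -/
theorem gs_chart_l2 (hG : GsGeo d M h t) (hp : IsParam M ψ U) {K : Set (E d)} (hK : IsCompact K)
    (hKU : K ⊆ U) :
    ∃ c : ℝ≥0∞, c ≠ ⊤ ∧ ∀ f : V → ℝ, eLpNorm (fun u => f (ψ u)) 2 (volume.restrict K) ≤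
      c * eLpNorm f 2 (wvol d M h t) := by
  obtain ⟨c, hc, hcmp⟩ := gs_chart_cmp (gs_met hG.met hp) (hG.drift ψ U hp) hK hKU
  refine ⟨ENNReal.ofReal c ^ (1 / (2 : ℝ≥0∞).toReal), ENNReal.rpow_ne_top_of_nonneg (by norm_num)
    ENNReal.ofReal_ne_top, fun f => ?_⟩
  have h2 : (2 : ℝ≥0∞) ≠ 0 := by norm_num
  have h2' : (2 : ℝ≥0∞) ≠ ⊤ := by norm_num
  rw [eLpNorm_eq_lintegral_rpow_enorm_toReal h2 h2', eLpNorm_eq_lintegral_rpow_enorm_toReal h2 h2',
    ← ENNReal.mul_rpow_of_nonneg _ _ (by norm_num : (0 : ℝ) ≤ 1 / (2 : ℝ≥0∞).toReal)]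
  refine ENNReal.rpow_le_rpow ?_ (by norm_num)
  calc ∫⁻ u in K, ‖f (ψ u)‖ₑ ^ (2 : ℝ≥0∞).toReal
      ≤ ∫⁻ u in K, ENNReal.ofReal c *
          (‖f (ψ u)‖ₑ ^ (2 : ℝ≥0∞).toReal * ENNReal.ofReal (ctRho h t ψ u)) := by
        refine setLIntegral_mono' hK.measurableSet fun u hu => ?_
        have h3 : (1 : ℝ≥0∞) ≤ ENNReal.ofReal c * ENNReal.ofReal (ctRho h t ψ u) := by
          rw [← ENNReal.ofReal_mul hc.le, ← ENNReal.ofReal_one]
          exact ENNReal.ofReal_le_ofReal (hcmp u hu).1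
        calc ‖f (ψ u)‖ₑ ^ (2 : ℝ≥0∞).toReal = ‖f (ψ u)‖ₑ ^ (2 : ℝ≥0∞).toReal * 1 := (mul_one _).symm
          _ ≤ ‖f (ψ u)‖ₑ ^ (2 : ℝ≥0∞).toReal *
              (ENNReal.ofReal c * ENNReal.ofReal (ctRho h t ψ u)) := by gcongr
          _ = _ := by ring
    _ = ENNReal.ofReal c * ∫⁻ x in ψ '' K, ‖f x‖ₑ ^ (2 : ℝ≥0∞).toReal ∂(wvol d M h t) := by
        rw [lintegral_const_mul' _ _ ENNReal.ofReal_ne_top,
          gs_lintegral_chart hG hp hK.measurableSet hKU]
    _ ≤ ENNReal.ofReal c * ∫⁻ x, ‖f x‖ₑ ^ (2 : ℝ≥0∞).toReal ∂(wvol d M h t) := by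
        gcongr
        exact Measure.restrict_le_self

/-- **leaf GS-TRANS-A** (2): the `L²(K)` norm of the derivative in the chart is bounded by the energy on `ψ '' K`.
PLAN: `gs_chart_cmp`, `gs_sq_eq`, `gs_integral_chart`/`gs_lintegral_chart`. -/
theorem gs_chart_h1 (hG : GsGeo d M h t) (hp : IsParam M ψ U) {K : Set (E d)} (hK : IsCompact K)
    (hKU : K ⊆ U) :
    ∃ c : ℝ, 0 ≤ c ∧ ∀ φ : V → ℝ, SmoothAlong d M φ →
      eLpNorm (fun u => fderiv ℝ (fun w => φ (ψ w)) u) 2 (volume.restrict K) ^ 2 ≤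
        ENNReal.ofReal (c * ∫ x in ψ '' K, gradSq d M h φ x ∂(wvol d M h t)) := by
  obtain ⟨c, hc, hcmp⟩ := gs_chart_cmp (gs_met hG.met hp) (hG.drift ψ U hp) hK hKU
  refine ⟨c, hc.le, fun φ hφ => ?_⟩
  have h2 : (2 : ℝ≥0∞) ≠ 0 := by norm_num
  have h2' : (2 : ℝ≥0∞) ≠ ⊤ := by norm_num
  have hsq : ∀ a : ℝ≥0∞, (a ^ (1 / (2 : ℝ≥0∞).toReal)) ^ 2 = a := by
    intro a
    rw [← ENNReal.rpow_natCast, ← ENNReal.rpow_mul]
    norm_num
  have hcont : ContinuousOn (fun u => gradSq d M h φ (ψ u) * ctRho h t ψ u) K :=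
    (((if_gradSq_smoothAlong hG.met hφ) ψ U hp).continuousOn.mul
      (gs_ctRho_smooth hG hp).continuousOn).mono hKU
  have hint : IntegrableOn (fun u => c * (gradSq d M h φ (ψ u) * ctRho h t ψ u)) K :=
    (hcont.integrableOn_compact hK).const_mul c
  have hnn : ∀ u ∈ K, 0 ≤ c * (gradSq d M h φ (ψ u) * ctRho h t ψ u) := by
    intro u hu
    rw [gs_sq_eq hG.met hφ hp (hKU hu)]
    exact mul_nonneg hc.le (mul_nonneg (rm_sq_nonneg (gs_met hG.met hp) (hKU hu) _)
      (gs_ctRho_pos hG hp (hKU hu)).le)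
  rw [eLpNorm_eq_lintegral_rpow_enorm_toReal h2 h2', hsq, gs_integral_chart hG hp hK.measurableSet hKU,
    ← integral_const_mul, ofReal_integral_eq_lintegral_ofReal hint
      ((ae_restrict_iff' hK.measurableSet).2 (Filter.Eventually.of_forall hnn))]
  refine setLIntegral_mono' hK.measurableSet fun u hu => ?_
  have h3 := (hcmp u hu).2.2 (fun w => φ (ψ w))
  rw [← gs_sq_eq hG.met hφ hp (hKU hu)] at h3
  have e : ‖fderiv ℝ (fun w => φ (ψ w)) u‖ₑ ^ (2 : ℝ≥0∞).toReal =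
      ENNReal.ofReal (‖fderiv ℝ (fun w => φ (ψ w)) u‖ ^ 2) := by
    rw [ENNReal.ofReal_pow (norm_nonneg _), ofReal_norm]
    norm_num
  rw [e]
  exact ENNReal.ofReal_le_ofReal h3

/-- **leaf GS-TRANS-B** (1).  PLAN: the integrand vanishes on `M \ ψ '' K` (`gs_push_test`, `gs_ip_off`) and `μ Mᶜ = 0`, so the integral is
the integral over `ψ '' U`; `gs_integral_chart` with `A = U`; `gs_ip_eq`, and `gsPush ψ U b ∘ ψ = b` on `U` (`rm_ip_congr`). -/
theorem gs_B_chart (hG : GsGeo d M h t) (hp : IsParam M ψ U) (hφ : SmoothAlong d M φ)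
    {b : E d → ℝ} (hb : ContDiffOn ℝ ∞ b U) {K : Set (E d)} (hK : IsCompact K) (hKU : K ⊆ U)
    (h0 : ∀ u ∈ U, u ∉ K → b u = 0) :
    gsB d M h t C W φ (gsPush ψ U b) =
      ∫ u in U, (C * gradIpC (cm h ψ) (fun w => φ (ψ w)) b u + W (ψ u) * (φ (ψ u) * b u)) *
        gsRho (cm h ψ) (fun w => t (ψ w)) u := by
  obtain ⟨htest, hoff⟩ := gs_push_test hp hb hK hKU h0
  have hKc : IsCompact (ψ '' K) := hK.image_of_continuousOn ((if_continuousOn hp).mono hKU)
  have hU : MeasurableSet U := (if_open hp).measurableSet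
  unfold gsB
  rw [← setIntegral_eq_integral_of_ae_compl_eq_zero (s := ψ '' U), gs_integral_chart hG hp hU Subset.rfl]
  · refine setIntegral_congr_fun hU fun u hu => ?_
    show (C * gradIp d M h φ (gsPush ψ U b) (ψ u) + W (ψ u) * (φ (ψ u) * gsPush ψ U b (ψ u))) *
      ctRho h t ψ u = _
    have hev : (fun w => gsPush ψ U b (ψ w)) =ᶠ[𝓝 u] b := by
      filter_upwards [(if_open hp).mem_nhds hu] with w hw
      exact gsPush_apply hp b hw
    rw [gs_ip_eq hG.met hφ htest.1 hp hu, rm_ip_congr (EventuallyEq.refl _ _) hev,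
      gsPush_apply hp b hu]
    rfl
  · filter_upwards [gs_ae_mem hG] with x hx hxU
    have hxK : x ∉ ψ '' K := fun hh => hxU (image_mono hKU hh)
    rw [gs_ip_off hG hφ hKc (fun y _ hy => hoff y hy) hx hxK, hoff x hxK]
    ring

/-- **leaf GS-TRANS-B** (2). -/
theorem gs_N_chart (hG : GsGeo d M h t) (hp : IsParam M ψ U) (F : V → ℝ)
    {b : E d → ℝ} {K : Set (E d)} (hK : IsCompact K) (hKU : K ⊆ U)
    (h0 : ∀ u ∈ U, u ∉ K → b u = 0) :
    gsN d M h t F (gsPush ψ U b) =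
      ∫ u in U, (F (ψ u) * b u) * gsRho (cm h ψ) (fun w => t (ψ w)) u := by
  have hU : MeasurableSet U := (if_open hp).measurableSet
  unfold gsN
  rw [← setIntegral_eq_integral_of_forall_compl_eq_zero (s := ψ '' U),
    gs_integral_chart hG hp hU Subset.rfl]
  · refine setIntegral_congr_fun hU fun u hu => ?_
    show (F (ψ u) * gsPush ψ U b (ψ u)) * ctRho h t ψ u = _
    rw [gsPush_apply hp b hu]
    rfl
  · intro x hx
    rw [gsPush_of_not_mem b hx, mul_zero]

end Claimed.Agent.R315
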