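import Claimed.Agent.R315.Ct.Defs
import Claimed.Agent.R315.Pack006
import Claimed.Agent.R315.Pack004

/-!
# Row 315, package Gs (gapped solve, Allegretto-Piepenbrink), part 1: CALCULUS ON `(M, h)`

MANIFOLD LEVEL versions of the chart rules `rm_*` of `Rm/Ops.lean` (prefix `gs_`).  Every consumer
of the row may cite this file: the rules are stated for `gradIp`, `gradSq`, `lap`, `wlap`, `Dsc` of
`Core/Basic.lean` and `Ct/Defs.lean` at a point `x ∈ M`.

* `gs_sm_*`   : algebra of `SmoothAlong d M`;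
* `gs_lap_eq`, `gs_wlap_eq`, `gs_Dsc_eq` : values in a parametrisation; `gs_*_sm` smoothness;
* `gs_ip_*`, `gs_sq_*` : `⟨df,dk⟩` is a symmetric positive bilinear form, Leibniz, chain rule;
* `gs_lap_*`, `gs_wlap_*` : Laplacian and drift Laplacian;
* `gs_Dsc_add`, `gs_Dsc_log` : change of the drift;
* `gs_*_congr` : the operators only depend on the values on `M` (near the point).
Owner: helper209.
-/

set_option autoImplicit false
set_option linter.unusedSectionVars false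
open scoped ContDiff Topology
open Claims.C0499 Set

namespace Claimed.Agent.R315

variable {V : Type} [NormedAddCommGroup V] [NormedSpace ℝ V]
variable {d : ℕ} {M : Set V} {h : Ten V} {ψ : E d → V} {U : Set (E d)}
variable {f k l t a v f' k' : V → ℝ} {x : V}

theorem gs_met (hh : IsMetricOn d M h) (hp : IsParam M ψ U) : rm_Met (cm h ψ) U :=
  ⟨if_open hp, (hh ψ U hp).1, (hh ψ U hp).2⟩

/-! ## algebra of `SmoothAlong` -/

theorem gs_sm_const (c : ℝ) : SmoothAlong d M (fun _ : V => c) := fun _ _ _ => contDiffOn_const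

theorem gs_sm_add (hf : SmoothAlong d M f) (hk : SmoothAlong d M k) :
    SmoothAlong d M (fun x => f x + k x) := fun ψ U hp => (hf ψ U hp).add (hk ψ U hp)

theorem gs_sm_sub (hf : SmoothAlong d M f) (hk : SmoothAlong d M k) :
    SmoothAlong d M (fun x => f x - k x) := fun ψ U hp => (hf ψ U hp).sub (hk ψ U hp)

theorem gs_sm_neg (hf : SmoothAlong d M f) : SmoothAlong d M (fun x => - f x) :=
  fun ψ U hp => (hf ψ U hp).neg

theorem gs_sm_mul (hf : SmoothAlong d M f) (hk : SmoothAlong d M k) :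
    SmoothAlong d M (fun x => f x * k x) := fun ψ U hp => (hf ψ U hp).mul (hk ψ U hp)

theorem gs_sm_smul (c : ℝ) (hf : SmoothAlong d M f) : SmoothAlong d M (fun x => c * f x) :=
  gs_sm_mul (gs_sm_const c) hf

theorem gs_sm_pow (hf : SmoothAlong d M f) (n : ℕ) : SmoothAlong d M (fun x => f x ^ n) :=
  fun ψ U hp => (hf ψ U hp).pow n

theorem gs_sm_sum {ι : Type} (s : Finset ι) {F : ι → V → ℝ}
    (hF : ∀ i ∈ s, SmoothAlong d M (F i)) : SmoothAlong d M (fun x => ∑ i ∈ s, F i x) :=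
  fun ψ U hp => ContDiffOn.sum fun i hi => hF i hi ψ U hp

/-- composition with a function which is smooth on a set containing the values. -/
theorem gs_sm_comp {φ : ℝ → ℝ} {I : Set ℝ} (hφ : ContDiffOn ℝ ∞ φ I) (hf : SmoothAlong d M f)
    (hfI : ∀ x ∈ M, f x ∈ I) : SmoothAlong d M (fun x => φ (f x)) :=
  fun ψ U hp => hφ.comp (hf ψ U hp) fun _ hu => hfI _ (if_mem hp hu)

theorem gs_sm_comp' {φ : ℝ → ℝ} (hφ : ContDiff ℝ ∞ φ) (hf : SmoothAlong d M f) :
    SmoothAlong d M (fun x => φ (f x)) := fun ψ U hp => hφ.comp_contDiffOn (hf ψ U hp)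

theorem gs_sm_exp (hf : SmoothAlong d M f) : SmoothAlong d M (fun x => Real.exp (f x)) :=
  gs_sm_comp' Real.contDiff_exp hf

theorem gs_sm_log (hf : SmoothAlong d M f) (h0 : ∀ x ∈ M, 0 < f x) :
    SmoothAlong d M (fun x => Real.log (f x)) :=
  fun ψ U hp => (hf ψ U hp).log fun _ hu => (h0 _ (if_mem hp hu)).ne'

theorem gs_sm_sqrt (hf : SmoothAlong d M f) (h0 : ∀ x ∈ M, 0 < f x) :
    SmoothAlong d M (fun x => Real.sqrt (f x)) :=
  fun ψ U hp => (hf ψ U hp).sqrt fun _ hu => (h0 _ (if_mem hp hu)).ne'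

theorem gs_sm_inv (hf : SmoothAlong d M f) (h0 : ∀ x ∈ M, f x ≠ 0) :
    SmoothAlong d M (fun x => (f x)⁻¹) :=
  fun ψ U hp => (hf ψ U hp).inv fun _ hu => h0 _ (if_mem hp hu)

theorem gs_sm_div (hf : SmoothAlong d M f) (hk : SmoothAlong d M k) (h0 : ∀ x ∈ M, k x ≠ 0) :
    SmoothAlong d M (fun x => f x / k x) :=
  fun ψ U hp => (hf ψ U hp).div (hk ψ U hp) fun _ hu => h0 _ (if_mem hp hu)

/-- smoothness along `M` only depends on the values on `M`. -/
theorem gs_sm_congr (hf : SmoothAlong d M f) (he : ∀ x ∈ M, f' x = f x) : SmoothAlong d M f' :=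
  fun ψ U hp => (hf ψ U hp).congr fun _ hu => he _ (if_mem hp hu)

/-- differentiability in a chart. -/
theorem gs_da (hf : SmoothAlong d M f) (hp : IsParam M ψ U) {u : E d} (hu : u ∈ U) :
    DifferentiableAt ℝ (fun w => f (ψ w)) u := if_smoothAlong_differentiableAt hf hp hu

/-! ## `pv` only depends on the values in parametrisations -/

theorem gs_pv_congr {Φ Φ' : (E d → V) → E d → ℝ}
    (he : ∀ (ψ : E d → V) (U : Set (E d)) (u : E d), IsParam M ψ U → u ∈ U → ψ u = x →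
      Φ ψ u = Φ' ψ u) : pv M Φ x = pv M Φ' x := by
  unfold pv
  congr 1
  ext r
  constructor
  · rintro ⟨ψ, U, u, hp, hu, hx, rfl⟩
    exact ⟨ψ, U, u, hp, hu, hx, he ψ U u hp hu hx⟩
  · rintro ⟨ψ, U, u, hp, hu, hx, rfl⟩
    exact ⟨ψ, U, u, hp, hu, hx, (he ψ U u hp hu hx).symm⟩

/-- two functions which agree on `M` near `x` agree in every chart near the preimage of `x`. -/
theorem gs_eventuallyEq {O : Set V} (hO : O ∈ 𝓝 x) (he : ∀ y ∈ M ∩ O, f y = f' y)
    (hp : IsParam M ψ U) {u : E d} (hu : u ∈ U) (hx : ψ u = x) : f ∘ ψ =ᶠ[𝓝 u] f' ∘ ψ := by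
  have hc : ContinuousAt ψ u := (if_continuousOn hp).continuousAt ((if_open hp).mem_nhds hu)
  have h1 : ∀ᶠ w in 𝓝 u, ψ w ∈ O := hc.eventually (by rw [hx]; exact hO)
  filter_upwards [h1, (if_open hp).mem_nhds hu] with w hw hwU
  exact he _ ⟨if_mem hp hwU, hw⟩

theorem gs_ip_congr_near {O : Set V} (hO : O ∈ 𝓝 x) (hf : ∀ y ∈ M ∩ O, f y = f' y)
    (hk : ∀ y ∈ M ∩ O, k y = k' y) : gradIp d M h f k x = gradIp d M h f' k' x :=
  gs_pv_congr fun _ _ _ hp hu hx =>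
    if_gradIpC_congr _ (gs_eventuallyEq hO hf hp hu hx) (gs_eventuallyEq hO hk hp hu hx)

theorem gs_ip_congr (hf : ∀ y ∈ M, f y = f' y) (hk : ∀ y ∈ M, k y = k' y) :
    gradIp d M h f k x = gradIp d M h f' k' x :=
  gs_ip_congr_near Filter.univ_mem (fun y hy => hf y hy.1) fun y hy => hk y hy.1

theorem gs_sq_congr_near {O : Set V} (hO : O ∈ 𝓝 x) (hf : ∀ y ∈ M ∩ O, f y = f' y) :
    gradSq d M h f x = gradSq d M h f' x := gs_ip_congr_near hO hf hf

theorem gs_sq_congr (hf : ∀ y ∈ M, f y = f' y) : gradSq d M h f x = gradSq d M h f' x :=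
  gs_ip_congr hf hf

theorem gs_lap_congr_near {O : Set V} (hO : O ∈ 𝓝 x) (hf : ∀ y ∈ M ∩ O, f y = f' y) :
    lap d M h f x = lap d M h f' x :=
  gs_pv_congr fun _ _ _ hp hu hx => rm_lap_congr (gs_eventuallyEq hO hf hp hu hx)

theorem gs_lap_congr (hf : ∀ y ∈ M, f y = f' y) : lap d M h f x = lap d M h f' x :=
  gs_lap_congr_near Filter.univ_mem fun y hy => hf y hy.1

theorem gs_wlap_congr_near {O : Set V} (hO : O ∈ 𝓝 x) (hf : ∀ y ∈ M ∩ O, f y = f' y) :
    wlap d M h t f x = wlap d M h t f' x := by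
  unfold wlap
  rw [gs_lap_congr_near hO hf, gs_ip_congr_near hO (fun _ _ => rfl) hf]

theorem gs_wlap_congr (hf : ∀ y ∈ M, f y = f' y) : wlap d M h t f x = wlap d M h t f' x :=
  gs_wlap_congr_near Filter.univ_mem fun y hy => hf y hy.1

/-! ## values in a parametrisation -/

section fd

variable [FiniteDimensional ℝ V]

theorem gs_inv_lap (hh : IsMetricOn d M h) (hf : SmoothAlong d M f) :
    if_Inv (d := d) M fun ψ u => lapC (cm h ψ) (f ∘ ψ) u := by
  intro ψ ψ' U U' u u' hp hp' hu hu' he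
  have hT := if_mem_trDom hu hu' he
  have e := if_tr_eq hp' hu' he
  have h2 : ContDiffAt ℝ 2 (f ∘ ψ') (if_tr ψ' U' ψ u) := by
    rw [e]; exact (if_smoothAlong_contDiffAt hf hp' hu').of_le (by decide)
  have key := (if_pullC hh hp hp').trHess hT (f' := f ∘ ψ') h2
  rw [e] at key
  have h3 : lapC (cm h ψ) (f ∘ ψ) u = lapC (cm h ψ) ((f ∘ ψ') ∘ if_tr ψ' U' ψ) u :=
    rm_lap_congr (if_comp_eventuallyEq f hp hp' hT)
  have hTo := if_isOpen_trDom hp hp'
  have hmT : rm_Met (cm h ψ) (if_trDom ψ U ψ' U') :=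
    ⟨hTo, fun i j => ((hh ψ U hp).1 i j).mono if_trDom_subset,
      fun w hw => (hh ψ U hp).2 w (if_trDom_subset hw)⟩
  have hsm : ContDiffOn ℝ ∞ ((f ∘ ψ') ∘ if_tr ψ' U' ψ) (if_trDom ψ U ψ' U') :=
    (hf ψ' U' hp').comp (if_tr_contDiffOn hp hp') fun w hw => if_tr_mem hw
  show lapC (cm h ψ) (f ∘ ψ) u = lapC (cm h ψ') (f ∘ ψ') u'
  rw [h3, rm_lapC_eq hmT hT hsm, rm_lapC_eq (gs_met hh hp') hu' (hf ψ' U' hp')]
  exact key

theorem gs_lap_eq (hh : IsMetricOn d M h) (hf : SmoothAlong d M f) (hp : IsParam M ψ U) {u : E d}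
    (hu : u ∈ U) : lap d M h f (ψ u) = lapC (cm h ψ) (fun w => f (ψ w)) u :=
  if_pv_eq (gs_inv_lap hh hf) hp hu

theorem gs_ip_eq (hh : IsMetricOn d M h) (hf : SmoothAlong d M f) (hk : SmoothAlong d M k)
    (hp : IsParam M ψ U) {u : E d} (hu : u ∈ U) :
    gradIp d M h f k (ψ u) = gradIpC (cm h ψ) (fun w => f (ψ w)) (fun w => k (ψ w)) u :=
  if_gradIp_eq hh hf hk hp hu

theorem gs_sq_eq (hh : IsMetricOn d M h) (hf : SmoothAlong d M f)
    (hp : IsParam M ψ U) {u : E d} (hu : u ∈ U) :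
    gradSq d M h f (ψ u) = gradSqC (cm h ψ) (fun w => f (ψ w)) u :=
  if_gradSq_eq hh hf hp hu

theorem gs_wlap_eq (hh : IsMetricOn d M h) (ht : SmoothAlong d M t) (hf : SmoothAlong d M f)
    (hp : IsParam M ψ U) {u : E d} (hu : u ∈ U) :
    wlap d M h t f (ψ u) = rm_dlapC (cm h ψ) (fun w => t (ψ w)) (fun w => f (ψ w)) u := by
  unfold wlap rm_dlapC
  rw [gs_lap_eq hh hf hp hu, gs_ip_eq hh ht hf hp hu]

theorem gs_Dsc_eq (hh : IsMetricOn d M h) (ht : SmoothAlong d M t)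
    (hp : IsParam M ψ U) {u : E d} (hu : u ∈ U) :
    Dsc d M h t (ψ u) = rm_DscC (cm h ψ) (fun w => t (ψ w)) u := by
  unfold Dsc rm_DscC
  rw [gs_lap_eq hh ht hp hu, gs_sq_eq hh ht hp hu, if_scal_eq hh hp hu]

theorem gs_lap_sm (hh : IsMetricOn d M h) (hf : SmoothAlong d M f) :
    SmoothAlong d M (lap d M h f) :=
  if_pv_smoothAlong (gs_inv_lap hh hf) fun ψ U hp => rm_lapC_smooth (gs_met hh hp) (hf ψ U hp)

theorem gs_wlap_sm (hh : IsMetricOn d M h) (ht : SmoothAlong d M t) (hf : SmoothAlong d M f) :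
    SmoothAlong d M (wlap d M h t f) :=
  gs_sm_sub (gs_lap_sm hh hf) (if_gradIp_smoothAlong hh ht hf)

theorem gs_Dsc_sm (hh : IsMetricOn d M h) (ht : SmoothAlong d M t) :
    SmoothAlong d M (Dsc d M h t) :=
  gs_sm_sub (gs_sm_add (if_scal_smoothAlong hh) (gs_sm_smul 2 (gs_lap_sm hh ht)))
    (if_gradSq_smoothAlong hh ht)

/-! ## `⟨df, dk⟩` -/

theorem gs_ip_comm (hM : IsMfd d M) (hh : IsMetricOn d M h) (hf : SmoothAlong d M f)
    (hk : SmoothAlong d M k) (hx : x ∈ M) : gradIp d M h f k x = gradIp d M h k f x := by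
  obtain ⟨ψ, U, hp, u, hu, rfl⟩ := hM x hx
  rw [gs_ip_eq hh hf hk hp hu, gs_ip_eq hh hk hf hp hu]
  exact rm_ip_comm (gs_met hh hp) hu _ _

theorem gs_ip_add_left (hM : IsMfd d M) (hh : IsMetricOn d M h) (hf : SmoothAlong d M f)
    (hk : SmoothAlong d M k) (hl : SmoothAlong d M l) (hx : x ∈ M) :
    gradIp d M h (fun y => f y + k y) l x = gradIp d M h f l x + gradIp d M h k l x := by
  obtain ⟨ψ, U, hp, u, hu, rfl⟩ := hM x hx
  rw [gs_ip_eq hh (gs_sm_add hf hk) hl hp hu, gs_ip_eq hh hf hl hp hu, gs_ip_eq hh hk hl hp hu]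
  exact rm_ip_add_left (gs_da hf hp hu) (gs_da hk hp hu)

theorem gs_ip_add_right (hM : IsMfd d M) (hh : IsMetricOn d M h) (hf : SmoothAlong d M f)
    (hk : SmoothAlong d M k) (hl : SmoothAlong d M l) (hx : x ∈ M) :
    gradIp d M h l (fun y => f y + k y) x = gradIp d M h l f x + gradIp d M h l k x := by
  obtain ⟨ψ, U, hp, u, hu, rfl⟩ := hM x hx
  rw [gs_ip_eq hh hl (gs_sm_add hf hk) hp hu, gs_ip_eq hh hl hf hp hu, gs_ip_eq hh hl hk hp hu]
  exact rm_ip_add_right (gs_da hf hp hu) (gs_da hk hp hu)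

theorem gs_ip_smul_left (hM : IsMfd d M) (hh : IsMetricOn d M h) (c : ℝ) (hf : SmoothAlong d M f)
    (hl : SmoothAlong d M l) (hx : x ∈ M) :
    gradIp d M h (fun y => c * f y) l x = c * gradIp d M h f l x := by
  obtain ⟨ψ, U, hp, u, hu, rfl⟩ := hM x hx
  rw [gs_ip_eq hh (gs_sm_smul c hf) hl hp hu, gs_ip_eq hh hf hl hp hu]
  exact rm_ip_smul_left c (gs_da hf hp hu)

theorem gs_ip_smul_right (hM : IsMfd d M) (hh : IsMetricOn d M h) (c : ℝ) (hf : SmoothAlong d M f)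
    (hl : SmoothAlong d M l) (hx : x ∈ M) :
    gradIp d M h l (fun y => c * f y) x = c * gradIp d M h l f x := by
  obtain ⟨ψ, U, hp, u, hu, rfl⟩ := hM x hx
  rw [gs_ip_eq hh hl (gs_sm_smul c hf) hp hu, gs_ip_eq hh hl hf hp hu]
  exact rm_ip_smul_right c (gs_da hf hp hu)

theorem gs_ip_const_left (hM : IsMfd d M) (hh : IsMetricOn d M h) (c : ℝ)
    (hl : SmoothAlong d M l) (hx : x ∈ M) : gradIp d M h (fun _ => c) l x = 0 := by
  obtain ⟨ψ, U, hp, u, hu, rfl⟩ := hM x hx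
  rw [gs_ip_eq hh (gs_sm_const c) hl hp hu]
  exact rm_ip_const_left c

theorem gs_ip_const_right (hM : IsMfd d M) (hh : IsMetricOn d M h) (c : ℝ)
    (hl : SmoothAlong d M l) (hx : x ∈ M) : gradIp d M h l (fun _ => c) x = 0 := by
  obtain ⟨ψ, U, hp, u, hu, rfl⟩ := hM x hx
  rw [gs_ip_eq hh hl (gs_sm_const c) hp hu]
  exact rm_ip_const_right c

theorem gs_ip_neg_left (hM : IsMfd d M) (hh : IsMetricOn d M h) (hf : SmoothAlong d M f)
    (hl : SmoothAlong d M l) (hx : x ∈ M) :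
    gradIp d M h (fun y => - f y) l x = - gradIp d M h f l x := by
  have := gs_ip_smul_left hM hh (-1) hf hl hx
  simpa using this

theorem gs_ip_neg_right (hM : IsMfd d M) (hh : IsMetricOn d M h) (hf : SmoothAlong d M f)
    (hl : SmoothAlong d M l) (hx : x ∈ M) :
    gradIp d M h l (fun y => - f y) x = - gradIp d M h l f x := by
  have := gs_ip_smul_right hM hh (-1) hf hl hx
  simpa using this

theorem gs_ip_sub_left (hM : IsMfd d M) (hh : IsMetricOn d M h) (hf : SmoothAlong d M f)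
    (hk : SmoothAlong d M k) (hl : SmoothAlong d M l) (hx : x ∈ M) :
    gradIp d M h (fun y => f y - k y) l x = gradIp d M h f l x - gradIp d M h k l x := by
  have := gs_ip_add_left hM hh hf (gs_sm_neg hk) hl hx
  rw [gs_ip_neg_left hM hh hk hl hx] at this
  simpa [sub_eq_add_neg] using this

theorem gs_ip_sub_right (hM : IsMfd d M) (hh : IsMetricOn d M h) (hf : SmoothAlong d M f)
    (hk : SmoothAlong d M k) (hl : SmoothAlong d M l) (hx : x ∈ M) :
    gradIp d M h l (fun y => f y - k y) x = gradIp d M h l f x - gradIp d M h l k x := by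
  have := gs_ip_add_right hM hh hf (gs_sm_neg hk) hl hx
  rw [gs_ip_neg_right hM hh hk hl hx] at this
  simpa [sub_eq_add_neg] using this

theorem gs_ip_mul_left (hM : IsMfd d M) (hh : IsMetricOn d M h) (hf : SmoothAlong d M f)
    (hk : SmoothAlong d M k) (hl : SmoothAlong d M l) (hx : x ∈ M) :
    gradIp d M h (fun y => f y * k y) l x
      = f x * gradIp d M h k l x + k x * gradIp d M h f l x := by
  obtain ⟨ψ, U, hp, u, hu, rfl⟩ := hM x hx
  rw [gs_ip_eq hh (gs_sm_mul hf hk) hl hp hu, gs_ip_eq hh hf hl hp hu, gs_ip_eq hh hk hl hp hu]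
  exact rm_ip_mul_left (gs_da hf hp hu) (gs_da hk hp hu)

theorem gs_ip_mul_right (hM : IsMfd d M) (hh : IsMetricOn d M h) (hf : SmoothAlong d M f)
    (hk : SmoothAlong d M k) (hl : SmoothAlong d M l) (hx : x ∈ M) :
    gradIp d M h l (fun y => f y * k y) x
      = f x * gradIp d M h l k x + k x * gradIp d M h l f x := by
  obtain ⟨ψ, U, hp, u, hu, rfl⟩ := hM x hx
  rw [gs_ip_eq hh hl (gs_sm_mul hf hk) hp hu, gs_ip_eq hh hl hf hp hu, gs_ip_eq hh hl hk hp hu]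
  exact rm_ip_mul_right (gs_da hf hp hu) (gs_da hk hp hu)

/-- chain rule; `φ` smooth on an open set `I` which contains `f '' M`. -/
theorem gs_ip_comp_left (hM : IsMfd d M) (hh : IsMetricOn d M h) {φ : ℝ → ℝ} {I : Set ℝ}
    (hI : IsOpen I) (hφ : ContDiffOn ℝ ∞ φ I) (hf : SmoothAlong d M f) (hfI : ∀ y ∈ M, f y ∈ I)
    (hl : SmoothAlong d M l) (hx : x ∈ M) :
    gradIp d M h (fun y => φ (f y)) l x = deriv φ (f x) * gradIp d M h f l x := by
  obtain ⟨ψ, U, hp, u, hu, rfl⟩ := hM x hx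
  rw [gs_ip_eq hh (gs_sm_comp hφ hf hfI) hl hp hu, gs_ip_eq hh hf hl hp hu]
  exact rm_ip_comp_left (f := fun w => f (ψ w))
    ((hφ.contDiffAt (hI.mem_nhds (hfI _ hx))).differentiableAt (by simp)) (gs_da hf hp hu)

theorem gs_ip_comp_right (hM : IsMfd d M) (hh : IsMetricOn d M h) {φ : ℝ → ℝ} {I : Set ℝ}
    (hI : IsOpen I) (hφ : ContDiffOn ℝ ∞ φ I) (hf : SmoothAlong d M f) (hfI : ∀ y ∈ M, f y ∈ I)
    (hl : SmoothAlong d M l) (hx : x ∈ M) :
    gradIp d M h l (fun y => φ (f y)) x = deriv φ (f x) * gradIp d M h l f x := by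
  obtain ⟨ψ, U, hp, u, hu, rfl⟩ := hM x hx
  rw [gs_ip_eq hh hl (gs_sm_comp hφ hf hfI) hp hu, gs_ip_eq hh hl hf hp hu]
  exact rm_ip_comp_right (f := fun w => f (ψ w))
    ((hφ.contDiffAt (hI.mem_nhds (hfI _ hx))).differentiableAt (by simp)) (gs_da hf hp hu)

theorem gs_sq_nonneg (hM : IsMfd d M) (hh : IsMetricOn d M h) (hf : SmoothAlong d M f)
    (hx : x ∈ M) : 0 ≤ gradSq d M h f x := by
  obtain ⟨ψ, U, hp, u, hu, rfl⟩ := hM x hx
  rw [gs_sq_eq hh hf hp hu]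
  exact rm_sq_nonneg (gs_met hh hp) hu _

theorem gs_ip_cs (hM : IsMfd d M) (hh : IsMetricOn d M h) (hf : SmoothAlong d M f)
    (hk : SmoothAlong d M k) (hx : x ∈ M) :
    gradIp d M h f k x ^ 2 ≤ gradSq d M h f x * gradSq d M h k x := by
  obtain ⟨ψ, U, hp, u, hu, rfl⟩ := hM x hx
  rw [gs_ip_eq hh hf hk hp hu, gs_sq_eq hh hf hp hu, gs_sq_eq hh hk hp hu]
  exact rm_ip_cs (gs_met hh hp) hu _ _

theorem gs_ip_young (hM : IsMfd d M) (hh : IsMetricOn d M h) (hf : SmoothAlong d M f)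
    (hk : SmoothAlong d M k) (hx : x ∈ M) {ε : ℝ} (hε : 0 < ε) :
    2 * gradIp d M h f k x ≤ ε * gradSq d M h f x + ε⁻¹ * gradSq d M h k x := by
  obtain ⟨ψ, U, hp, u, hu, rfl⟩ := hM x hx
  rw [gs_ip_eq hh hf hk hp hu, gs_sq_eq hh hf hp hu, gs_sq_eq hh hk hp hu]
  exact rm_ip_young (gs_met hh hp) hu _ _ hε

theorem gs_sq_add (hM : IsMfd d M) (hh : IsMetricOn d M h) (hf : SmoothAlong d M f)
    (hk : SmoothAlong d M k) (hx : x ∈ M) :
    gradSq d M h (fun y => f y + k y) x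
      = gradSq d M h f x + 2 * gradIp d M h f k x + gradSq d M h k x := by
  simp only [if_gradSq_eq_gradIp]
  rw [gs_ip_add_left hM hh hf hk (gs_sm_add hf hk) hx, gs_ip_add_right hM hh hf hk hf hx,
    gs_ip_add_right hM hh hf hk hk hx, gs_ip_comm hM hh hk hf hx]
  ring

theorem gs_sq_sub (hM : IsMfd d M) (hh : IsMetricOn d M h) (hf : SmoothAlong d M f)
    (hk : SmoothAlong d M k) (hx : x ∈ M) :
    gradSq d M h (fun y => f y - k y) x
      = gradSq d M h f x - 2 * gradIp d M h f k x + gradSq d M h k x := by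
  simp only [if_gradSq_eq_gradIp]
  rw [gs_ip_sub_left hM hh hf hk (gs_sm_sub hf hk) hx, gs_ip_sub_right hM hh hf hk hf hx,
    gs_ip_sub_right hM hh hf hk hk hx, gs_ip_comm hM hh hk hf hx]
  ring

theorem gs_sq_smul (hM : IsMfd d M) (hh : IsMetricOn d M h) (c : ℝ) (hf : SmoothAlong d M f)
    (hx : x ∈ M) : gradSq d M h (fun y => c * f y) x = c ^ 2 * gradSq d M h f x := by
  simp only [if_gradSq_eq_gradIp]
  rw [gs_ip_smul_left hM hh c hf (gs_sm_smul c hf) hx, gs_ip_smul_right hM hh c hf hf hx]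
  ring

theorem gs_sq_const (hM : IsMfd d M) (hh : IsMetricOn d M h) (c : ℝ) (hx : x ∈ M) :
    gradSq d M h (fun _ => c) x = 0 := gs_ip_const_left hM hh c (gs_sm_const c) hx

theorem gs_sq_mul (hM : IsMfd d M) (hh : IsMetricOn d M h) (hf : SmoothAlong d M f)
    (hk : SmoothAlong d M k) (hx : x ∈ M) :
    gradSq d M h (fun y => f y * k y) x
      = f x ^ 2 * gradSq d M h k x + 2 * (f x * k x) * gradIp d M h f k x
        + k x ^ 2 * gradSq d M h f x := by
  simp only [if_gradSq_eq_gradIp]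
  rw [gs_ip_mul_left hM hh hf hk (gs_sm_mul hf hk) hx, gs_ip_mul_right hM hh hf hk hf hx,
    gs_ip_mul_right hM hh hf hk hk hx, gs_ip_comm hM hh hk hf hx]
  ring

theorem gs_sq_comp (hM : IsMfd d M) (hh : IsMetricOn d M h) {φ : ℝ → ℝ} {I : Set ℝ}
    (hI : IsOpen I) (hφ : ContDiffOn ℝ ∞ φ I) (hf : SmoothAlong d M f) (hfI : ∀ y ∈ M, f y ∈ I)
    (hx : x ∈ M) :
    gradSq d M h (fun y => φ (f y)) x = deriv φ (f x) ^ 2 * gradSq d M h f x := by
  simp only [if_gradSq_eq_gradIp]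
  rw [gs_ip_comp_left hM hh hI hφ hf hfI (gs_sm_comp hφ hf hfI) hx,
    gs_ip_comp_right hM hh hI hφ hf hfI hf hx]
  ring

/-! ## Laplacian and drift Laplacian -/

theorem gs_lap_const (hM : IsMfd d M) (hh : IsMetricOn d M h) (c : ℝ) (hx : x ∈ M) :
    lap d M h (fun _ => c) x = 0 := by
  obtain ⟨ψ, U, hp, u, hu, rfl⟩ := hM x hx
  rw [gs_lap_eq hh (gs_sm_const c) hp hu]
  exact rm_lap_const c

theorem gs_lap_add (hM : IsMfd d M) (hh : IsMetricOn d M h) (hf : SmoothAlong d M f)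
    (hk : SmoothAlong d M k) (hx : x ∈ M) :
    lap d M h (fun y => f y + k y) x = lap d M h f x + lap d M h k x := by
  obtain ⟨ψ, U, hp, u, hu, rfl⟩ := hM x hx
  rw [gs_lap_eq hh (gs_sm_add hf hk) hp hu, gs_lap_eq hh hf hp hu, gs_lap_eq hh hk hp hu]
  exact rm_lap_add (gs_met hh hp) hu (hf ψ U hp) (hk ψ U hp)

theorem gs_lap_smul (hM : IsMfd d M) (hh : IsMetricOn d M h) (c : ℝ) (hf : SmoothAlong d M f)
    (hx : x ∈ M) : lap d M h (fun y => c * f y) x = c * lap d M h f x := by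
  obtain ⟨ψ, U, hp, u, hu, rfl⟩ := hM x hx
  rw [gs_lap_eq hh (gs_sm_smul c hf) hp hu, gs_lap_eq hh hf hp hu]
  exact rm_lap_smul (gs_met hh hp) hu c (hf ψ U hp)

theorem gs_lap_mul (hM : IsMfd d M) (hh : IsMetricOn d M h) (hf : SmoothAlong d M f)
    (hk : SmoothAlong d M k) (hx : x ∈ M) :
    lap d M h (fun y => f y * k y) x
      = f x * lap d M h k x + k x * lap d M h f x + 2 * gradIp d M h f k x := by
  obtain ⟨ψ, U, hp, u, hu, rfl⟩ := hM x hx
  rw [gs_lap_eq hh (gs_sm_mul hf hk) hp hu, gs_lap_eq hh hf hp hu, gs_lap_eq hh hk hp hu,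
    gs_ip_eq hh hf hk hp hu]
  exact rm_lap_mul (gs_met hh hp) hu (hf ψ U hp) (hk ψ U hp)

theorem gs_lap_comp (hM : IsMfd d M) (hh : IsMetricOn d M h) {φ : ℝ → ℝ} {I : Set ℝ}
    (hI : IsOpen I) (hφ : ContDiffOn ℝ ∞ φ I) (hf : SmoothAlong d M f) (hfI : ∀ y ∈ M, f y ∈ I)
    (hx : x ∈ M) :
    lap d M h (fun y => φ (f y)) x
      = deriv φ (f x) * lap d M h f x + deriv (deriv φ) (f x) * gradSq d M h f x := by
  obtain ⟨ψ, U, hp, u, hu, rfl⟩ := hM x hx
  rw [gs_lap_eq hh (gs_sm_comp hφ hf hfI) hp hu, gs_lap_eq hh hf hp hu, gs_sq_eq hh hf hp hu]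
  exact rm_lap_comp (gs_met hh hp) hu (hf ψ U hp) hI hφ fun w hw => hfI _ (if_mem hp hw)

theorem gs_wlap_const (hM : IsMfd d M) (hh : IsMetricOn d M h) (ht : SmoothAlong d M t) (c : ℝ)
    (hx : x ∈ M) : wlap d M h t (fun _ => c) x = 0 := by
  unfold wlap
  rw [gs_lap_const hM hh c hx, gs_ip_const_right hM hh c ht hx, sub_zero]

theorem gs_wlap_add (hM : IsMfd d M) (hh : IsMetricOn d M h) (ht : SmoothAlong d M t)
    (hf : SmoothAlong d M f) (hk : SmoothAlong d M k) (hx : x ∈ M) :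
    wlap d M h t (fun y => f y + k y) x = wlap d M h t f x + wlap d M h t k x := by
  unfold wlap
  rw [gs_lap_add hM hh hf hk hx, gs_ip_add_right hM hh hf hk ht hx]
  ring

theorem gs_wlap_smul (hM : IsMfd d M) (hh : IsMetricOn d M h) (ht : SmoothAlong d M t) (c : ℝ)
    (hf : SmoothAlong d M f) (hx : x ∈ M) :
    wlap d M h t (fun y => c * f y) x = c * wlap d M h t f x := by
  unfold wlap
  rw [gs_lap_smul hM hh c hf hx, gs_ip_smul_right hM hh c hf ht hx]
  ring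

theorem gs_wlap_sub (hM : IsMfd d M) (hh : IsMetricOn d M h) (ht : SmoothAlong d M t)
    (hf : SmoothAlong d M f) (hk : SmoothAlong d M k) (hx : x ∈ M) :
    wlap d M h t (fun y => f y - k y) x = wlap d M h t f x - wlap d M h t k x := by
  have h1 := gs_wlap_add hM hh ht hf (gs_sm_smul (-1) hk) hx
  rw [gs_wlap_smul hM hh ht (-1) hk hx] at h1
  have h2 : (fun y => f y - k y) = fun y => f y + -1 * k y := by
    funext y; ring
  rw [h2, h1]; ring

theorem gs_wlap_mul (hM : IsMfd d M) (hh : IsMetricOn d M h) (ht : SmoothAlong d M t)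
    (hf : SmoothAlong d M f) (hk : SmoothAlong d M k) (hx : x ∈ M) :
    wlap d M h t (fun y => f y * k y) x
      = f x * wlap d M h t k x + k x * wlap d M h t f x + 2 * gradIp d M h f k x := by
  unfold wlap
  rw [gs_lap_mul hM hh hf hk hx, gs_ip_mul_right hM hh hf hk ht hx]
  ring

theorem gs_wlap_comp (hM : IsMfd d M) (hh : IsMetricOn d M h) (ht : SmoothAlong d M t)
    {φ : ℝ → ℝ} {I : Set ℝ} (hI : IsOpen I) (hφ : ContDiffOn ℝ ∞ φ I) (hf : SmoothAlong d M f)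
    (hfI : ∀ y ∈ M, f y ∈ I) (hx : x ∈ M) :
    wlap d M h t (fun y => φ (f y)) x
      = deriv φ (f x) * wlap d M h t f x + deriv (deriv φ) (f x) * gradSq d M h f x := by
  unfold wlap
  rw [gs_lap_comp hM hh hI hφ hf hfI hx, gs_ip_comp_right hM hh hI hφ hf hfI ht hx]
  ring

/-! ## change of the drift -/

theorem gs_Dsc_add (hM : IsMfd d M) (hh : IsMetricOn d M h) (ht : SmoothAlong d M t)
    (ha : SmoothAlong d M a) (hx : x ∈ M) :
    Dsc d M h (fun y => t y + a y) x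
      = Dsc d M h t x + 2 * wlap d M h t a x - gradSq d M h a x := by
  unfold Dsc wlap
  rw [gs_lap_add hM hh ht ha hx, gs_sq_add hM hh ht ha hx]
  ring

/-- `D(h, t - c log v) = D(h,t) - 2c Δ_t v / v + (2c - c²)|dv|²/v²`. -/
theorem gs_Dsc_log (hM : IsMfd d M) (hh : IsMetricOn d M h) (ht : SmoothAlong d M t)
    (hv : SmoothAlong d M v) (hpos : ∀ y ∈ M, 0 < v y) (c : ℝ) (hx : x ∈ M) :
    Dsc d M h (fun y => t y - c * Real.log (v y)) x
      = Dsc d M h t x - 2 * c * wlap d M h t v x / v x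
        + (2 * c - c ^ 2) * gradSq d M h v x / v x ^ 2 := by
  obtain ⟨ψ, U, hp, u, hu, rfl⟩ := hM x hx
  rw [gs_Dsc_eq hh (gs_sm_sub ht (gs_sm_smul c (gs_sm_log hv hpos))) hp hu, gs_Dsc_eq hh ht hp hu,
    gs_wlap_eq hh ht hv hp hu, gs_sq_eq hh hv hp hu]
  exact rm_Dsc_log (gs_met hh hp) hu (ht ψ U hp) (hv ψ U hp) (fun w hw => hpos _ (if_mem hp hw)) c

/-- the drift `0`: `D(h, 0) = Scal_h`. -/
theorem gs_Dsc_zero (hM : IsMfd d M) (hh : IsMetricOn d M h) (hx : x ∈ M) :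
    Dsc d M h (fun _ => 0) x = scal d M h x := by
  unfold Dsc
  rw [gs_lap_const hM hh 0 hx, gs_sq_const hM hh 0 hx]
  ring

end fd

end Claimed.Agent.R315
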