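import Claimed.Agent.R315.Gs.Calc
import Claimed.Agent.R315.Pack004
import Claimed.Agent.R315.Pack003
import Claimed.Agent.R315.Ct.BvA

/-!
# Row 315, package Gs, part 2: test functions, the weighted volume, the quadratic form

Setting: `(M, h, t)` a Core manifold with a metric and a drift (`GsGeo d M h t`); `M` need NOT be
closed in `V` and `(M, h)` need NOT be complete.  `μ = wvol d M h t = e^{-t} dvol_h`.

* `IsTestOn d M φ` : `φ` is smooth along `M` and vanishes on `M` outside a compact subset of `M`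
  (the values of `φ` off `M` are irrelevant);
* `gsN φ ψ = ∫ φ ψ dμ`, `gsB C W φ ψ = ∫ (C ⟨dφ,dψ⟩ + W φ ψ) dμ`;
* `GsGap C W γ` : `γ ∫ φ² dμ ≤ ∫ (C |dφ|² + W φ²) dμ` for all test functions;
* `gsPush ψ U b` : a function on a chart domain transported to `M` (extended by `0`).

## Leaves of this file
Section MEAS (leaf GS-MEAS): elementary facts on `wvol` from `IsVol` (everything reduces to the
 definition of `IsVol` on images of measurable subsets of chart domains and a countable atlas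
 `if_exists_atlas`).  KEY FACT (`gs_map_chart`): for a parametrisation `(ψ, U)`
 `μ.restrict (ψ '' U) = Measure.map ψ ((volume.restrict U).withDensity (ofReal ∘ ctRho h t ψ))`; proof: both sides are
 measures; on a measurable `B`: `μ (B ∩ ψ '' U) = μ (ψ '' (U ∩ ψ⁻¹' B))`, and for `A ⊆ U` measurable
 `μ (ψ '' A) = ∫⁻_{ψ''A} 1_M e^{-t} dvol`; `vol.restrict (ψ''U) = map ψ ((volume.restrict U).withDensity √det)` by `IsVol`
 (`Measure.ext`, `if_measurableSet_preimage`, `if_measurableSet_image`); `s.restrict ψ` is a `MeasurableEmbedding`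
 (`ContinuousOn.measurableEmbedding`), hence the integral formulas hold for ARBITRARY functions `f`.
 UPDATE: `If/VolInt.lean` (helper274, sorry-free) has `if_map_restrict`, `if_lintegral_vol_image`, `if_integral_vol_image`,
 `if_integrableOn_vol_image`, `if_vol_lt_top_of_isCompact` for `vol`: derive the statements for `wvol = vol.withDensity ..` from them.
Section TEST (leaf GS-TEST): cutoffs and push-forwards.
Owner: helper209.
-/

set_option autoImplicit false
set_option linter.unusedSectionVars false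
open scoped ContDiff Topology ENNReal
open Claims.C0499 Set MeasureTheory

namespace Claimed.Agent.R315

variable {V : Type} [NormedAddCommGroup V] [NormedSpace ℝ V]

/-- test functions on the manifold `M`. -/
def IsTestOn (d : ℕ) (M : Set V) (φ : V → ℝ) : Prop := SmoothAlong d M φ ∧ CtCS M φ

open Classical in
/-- transport of a function on the chart domain `U` to `M`, extended by zero. -/
noncomputable def gsPush {d : ℕ} (ψ : E d → V) (U : Set (E d)) (b : E d → ℝ) (x : V) : ℝ :=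
  if x ∈ ψ '' U then b (Function.invFunOn ψ U x) else 0

section meas

variable [MeasurableSpace V] [BorelSpace V]

/-- the standing hypotheses of the package (`isVol` is automatic: `CtGeo.gs`). -/
structure GsGeo (d : ℕ) (M : Set V) (h : Ten V) (t : V → ℝ) : Prop extends CtGeo d M h t where
  isVol : IsVol d M h (vol d M h)

theorem CtGeo.gs [FiniteDimensional ℝ V] {d : ℕ} {M : Set V} {h : Ten V} {t : V → ℝ}
    (hG : CtGeo d M h t) : GsGeo d M h t :=
  { hG with isVol := if_isVol_vol hG.mfd h }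

/-- `∫ φ ψ dμ`. -/
noncomputable def gsN (d : ℕ) (M : Set V) (h : Ten V) (t : V → ℝ) (φ ψ : V → ℝ) : ℝ :=
  ∫ x, φ x * ψ x ∂(wvol d M h t)

/-- `∫ (C ⟨dφ,dψ⟩ + W φ ψ) dμ`. -/
noncomputable def gsB (d : ℕ) (M : Set V) (h : Ten V) (t : V → ℝ) (C : ℝ) (W : V → ℝ)
    (φ ψ : V → ℝ) : ℝ :=
  ∫ x, (C * gradIp d M h φ ψ x + W x * (φ x * ψ x)) ∂(wvol d M h t)

/-- spectral gap `γ` of the form `C |dφ|² + W φ²`. -/
def GsGap (d : ℕ) (M : Set V) (h : Ten V) (t : V → ℝ) (C : ℝ) (W : V → ℝ) (γ : ℝ) : Prop :=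
  ∀ φ : V → ℝ, IsTestOn d M φ → γ * gsN d M h t φ φ ≤ gsB d M h t C W φ φ

end meas

variable {d : ℕ} {M : Set V} {h : Ten V} {t : V → ℝ} {ψ : E d → V} {U : Set (E d)}
variable {φ φ' χ f : V → ℝ}

/-! ## algebra of test functions (proved) -/

theorem IsTestOn.smooth (hφ : IsTestOn d M φ) : SmoothAlong d M φ := hφ.1

theorem gs_test_zero : IsTestOn d M (fun _ : V => (0 : ℝ)) :=
  ⟨gs_sm_const 0, ∅, isCompact_empty, empty_subset _, fun _ _ _ => rfl⟩

theorem IsTestOn.add (hφ : IsTestOn d M φ) (hφ' : IsTestOn d M φ') :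
    IsTestOn d M (fun x => φ x + φ' x) := by
  obtain ⟨h1, K, hK, hKM, h0⟩ := hφ
  obtain ⟨h1', K', hK', hKM', h0'⟩ := hφ'
  refine ⟨gs_sm_add h1 h1', K ∪ K', hK.union hK', union_subset hKM hKM', fun x hx hxK => ?_⟩
  show φ x + φ' x = 0
  rw [h0 x hx fun hh => hxK (Or.inl hh), h0' x hx fun hh => hxK (Or.inr hh), add_zero]

/-- multiplication by a function which is smooth along `M`. -/
theorem IsTestOn.mul_left (hχ : SmoothAlong d M χ) (hφ : IsTestOn d M φ) :
    IsTestOn d M (fun x => χ x * φ x) := by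
  obtain ⟨h1, K, hK, hKM, h0⟩ := hφ
  exact ⟨gs_sm_mul hχ h1, K, hK, hKM, fun x hx hxK => by
    show χ x * φ x = 0
    rw [h0 x hx hxK, mul_zero]⟩

theorem IsTestOn.smul (c : ℝ) (hφ : IsTestOn d M φ) : IsTestOn d M (fun x => c * φ x) :=
  hφ.mul_left (gs_sm_const c)

theorem IsTestOn.neg (hφ : IsTestOn d M φ) : IsTestOn d M (fun x => - φ x) := by
  have := hφ.smul (-1)
  simpa using this

theorem IsTestOn.sub (hφ : IsTestOn d M φ) (hφ' : IsTestOn d M φ') :
    IsTestOn d M (fun x => φ x - φ' x) := by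
  have := hφ.add hφ'.neg
  simpa [sub_eq_add_neg] using this

/-- composition with a smooth function vanishing at `0`. -/
theorem IsTestOn.comp {F : ℝ → ℝ} (hF : ContDiff ℝ ∞ F) (hF0 : F 0 = 0) (hφ : IsTestOn d M φ) :
    IsTestOn d M (fun x => F (φ x)) := by
  obtain ⟨h1, K, hK, hKM, h0⟩ := hφ
  exact ⟨gs_sm_comp' hF h1, K, hK, hKM, fun x hx hxK => by
    show F (φ x) = 0
    rw [h0 x hx hxK, hF0]⟩

theorem IsTestOn.congr (hφ : IsTestOn d M φ) (he : ∀ x ∈ M, φ' x = φ x) : IsTestOn d M φ' := by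
  obtain ⟨h1, K, hK, hKM, h0⟩ := hφ
  exact ⟨gs_sm_congr h1 he, K, hK, hKM, fun x hx hxK => by rw [he x hx, h0 x hx hxK]⟩

/-- the space of test functions. -/
def gsTest (d : ℕ) (M : Set V) : Submodule ℝ (V → ℝ) where
  carrier := {φ | IsTestOn d M φ}
  add_mem' := fun ha hb => IsTestOn.add ha hb
  zero_mem' := gs_test_zero
  smul_mem' := fun c _ ha => IsTestOn.smul c ha

/-! ## Section TEST (leaf GS-TEST) -/

section fd

variable [FiniteDimensional ℝ V]

/-- local compactness of `M`: every compact subset has a compact neighbourhood in `M`.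
PLAN: for `x ∈ K` take a parametrisation `(ψ,U)`, `x = ψ u`, `closedBall u r ⊆ U`; `ψ '' ball u r = M ∩ O_x` (`if_image_open`)
and `ψ '' closedBall u r` is compact; finite subcover. -/
theorem gs_exists_compact_nhd (hM : IsMfd d M) {K : Set V} (hK : IsCompact K) (hKM : K ⊆ M) :
    ∃ (K' O : Set V), IsCompact K' ∧ K' ⊆ M ∧ IsOpen O ∧ K ⊆ O ∧ M ∩ O ⊆ K' := by
  have key : ∀ x ∈ K, ∃ (C O : Set V), IsCompact C ∧ C ⊆ M ∧ IsOpen O ∧ x ∈ O ∧ M ∩ O ⊆ C := by
    intro x hx
    obtain ⟨ψ, U, hp, u, hu, rfl⟩ := hM x (hKM hx)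
    obtain ⟨r, hr, hb⟩ := Metric.nhds_basis_closedBall.mem_iff.1 ((if_open hp).mem_nhds hu)
    have hbb : Metric.ball u r ⊆ U := Metric.ball_subset_closedBall.trans hb
    obtain ⟨O, hO, hOe⟩ := if_image_open hp Metric.isOpen_ball hbb
    refine ⟨ψ '' Metric.closedBall u r,  O,
      (isCompact_closedBall u r).image_of_continuousOn ((if_continuousOn hp).mono hb), ?_, hO, ?_, ?_⟩
    · rintro _ ⟨w, hw, rfl⟩
      exact if_mem hp (hb hw)
    · have : ψ u ∈ M ∩ O := hOe ▸ mem_image_of_mem ψ (Metric.mem_ball_self hr)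
      exact this.2
    · rw [← hOe]
      exact image_mono Metric.ball_subset_closedBall
  choose! C O hC hCM hO hxO hMO using key
  obtain ⟨T, hT, hcov⟩ := hK.elim_nhds_subcover O fun x hx => (hO x hx).mem_nhds (hxO x hx)
  refine ⟨⋃ x ∈ T, C x, ⋃ x ∈ T, O x, T.isCompact_biUnion fun x hx => hC x (hT x hx),
    iUnion₂_subset fun x hx => hCM x (hT x hx), isOpen_biUnion fun x hx => hO x (hT x hx), hcov, ?_⟩
  rintro y ⟨hyM, hy⟩
  obtain ⟨x, hx, hyx⟩ := mem_iUnion₂.1 hy
  exact mem_iUnion₂.2 ⟨x, hx, hMO x (hT x hx) ⟨hyM, hyx⟩⟩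

/-- cutoff functions.  PLAN: `gs_exists_compact_nhd` gives `K ⊆ O`, `M ∩ O ⊆ K'`; Mathlib
(`exists_contDiff_tsupport_subset` or `exists_smooth_zero_one_of_isClosed` in `V`, applied to `K` and `Oᶜ` after shrinking) gives an
ambient smooth `η : V → [0,1]`, `η = 1` on a neighbourhood `O'` of `K`, `η = 0` off `O`; `if_smoothAlong_of_contDiff`. -/
theorem gs_exists_cutoff (hM : IsMfd d M) {K : Set V} (hK : IsCompact K) (hKM : K ⊆ M) :
    ∃ (η : V → ℝ) (O : Set V), IsTestOn d M η ∧ (∀ x, 0 ≤ η x ∧ η x ≤ 1) ∧ IsOpen O ∧ K ⊆ O ∧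
      ∀ x ∈ O, η x = 1 := by
  obtain ⟨K', O, hK', hK'M, hO, hKO, hMO⟩ := gs_exists_compact_nhd hM hK hKM
  obtain ⟨f, h1, h0, hf⟩ := exists_contMDiffMap_one_nhds_of_subset_interior (n := ⊤)
    (modelWithCornersSelf ℝ V) hK.isClosed (t := O) (by rwa [hO.interior_eq])
  obtain ⟨O', hO', hKO', hO'1⟩ := mem_nhdsSet_iff_exists.1 h1
  exact ⟨f, O', ⟨if_smoothAlong_of_contDiff f.contMDiff.contDiff, K', hK', hK'M, fun x hx hxK =>
    h0 x fun hxO => hxK (hMO ⟨hx, hxO⟩)⟩, fun x => hf x, hO', hKO', fun x hx => hO'1 hx⟩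

theorem gsPush_apply (hp : IsParam M ψ U) (b : E d → ℝ) {u : E d} (hu : u ∈ U) :
    gsPush ψ U b (ψ u) = b u := by
  unfold gsPush
  rw [if_pos (mem_image_of_mem ψ hu), if_leftInv hp hu]

theorem gsPush_of_not_mem (b : E d → ℝ) {x : V} (hx : x ∉ ψ '' U) : gsPush ψ U b x = 0 := by
  unfold gsPush
  rw [if_neg hx]

/-- the push-forward of a function which is smooth on `U` and vanishes on `U` outside a compact subset `K` of `U` is a test
function on `M`, which vanishes on `M` outside `ψ '' K`.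
PLAN: let `(ψ',U')` be a parametrisation, `u' ∈ U'`.  If `ψ' u' ∈ ψ '' U`: near `u'`, `gsPush ψ U b ∘ ψ' = b ∘ if_tr ψ U ψ'` on the
open set `if_trDom ψ' U' ψ U`, smooth.  If `ψ' u' ∉ ψ '' K` (`ψ '' K` compact, hence closed): near `u'` the function vanishes
(`gsPush` vanishes at `ψ w`, `w ∈ U \ K`, and off `ψ '' U`).  The two open sets cover `U'`. -/
theorem gs_push_test (hp : IsParam M ψ U) {b : E d → ℝ} (hb : ContDiffOn ℝ ∞ b U) {K : Set (E d)}
    (hK : IsCompact K) (hKU : K ⊆ U) (h0 : ∀ u ∈ U, u ∉ K → b u = 0) :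
    IsTestOn d M (gsPush ψ U b) ∧ ∀ x, x ∉ ψ '' K → gsPush ψ U b x = 0 := by
  have hoff : ∀ x, x ∉ ψ '' K → gsPush ψ U b x = 0 := by
    intro x hx
    by_cases hxU : x ∈ ψ '' U
    · obtain ⟨u, hu, rfl⟩ := hxU
      rw [gsPush_apply hp b hu]
      exact h0 u hu fun huK => hx (mem_image_of_mem ψ huK)
    · exact gsPush_of_not_mem b hxU
  have hKc : IsCompact (ψ '' K) := hK.image_of_continuousOn ((if_continuousOn hp).mono hKU)
  refine ⟨⟨?_, ψ '' K, hKc, (image_mono hKU).trans (if_image_subset hp), fun x _ hx => hoff x hx⟩,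
    hoff⟩
  intro ψ' U' hp' u' hu'
  refine ContDiffAt.contDiffWithinAt ?_
  by_cases hc : ψ' u' ∈ ψ '' U
  · have hmem : u' ∈ if_trDom ψ' U' ψ U := ⟨hu', hc⟩
    have hev : (gsPush ψ U b ∘ ψ') =ᶠ[𝓝 u'] fun w => b (if_tr ψ U ψ' w) := by
      filter_upwards [(if_isOpen_trDom hp' hp).mem_nhds hmem] with w hw
      show gsPush ψ U b (ψ' w) = _
      rw [← if_tr_spec hw, gsPush_apply hp b (if_tr_mem hw)]
    refine ContDiffAt.congr_of_eventuallyEq ?_ hev
    exact ContDiffAt.comp u' ((hb _ (if_tr_mem hmem)).contDiffAt ((if_open hp).mem_nhds (if_tr_mem hmem)))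
      (if_tr_contDiffAt hp' hp hmem)
  · have hc' : ψ' u' ∉ ψ '' K := fun hh => hc (image_mono hKU hh)
    have hcont : ContinuousAt ψ' u' :=
      (if_continuousOn hp').continuousAt ((if_open hp').mem_nhds hu')
    have hev : (gsPush ψ U b ∘ ψ') =ᶠ[𝓝 u'] fun _ => (0 : ℝ) := by
      filter_upwards [hcont.eventually (hKc.isClosed.isOpen_compl.mem_nhds hc')] with w hw
      exact hoff _ hw
    exact contDiffAt_const.congr_of_eventuallyEq hev

end fd

/-! ## Section MEAS (leaf GS-MEAS) -/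

section meas

variable [FiniteDimensional ℝ V] [MeasurableSpace V] [BorelSpace V]

theorem gs_wvol_compl (hG : GsGeo d M h t) : wvol d M h t Mᶜ = 0 := by
  exact ct_wvol_compl hG.toCtGeo

theorem gs_ae_mem (hG : GsGeo d M h t) : ∀ᵐ x ∂(wvol d M h t), x ∈ M := by
  exact mem_ae_iff.2 (gs_wvol_compl hG)

/-- the key fact: the weighted volume in a parametrisation. -/
theorem gs_map_chart (hG : GsGeo d M h t) (hp : IsParam M ψ U) :
    (wvol d M h t).restrict (ψ '' U) = Measure.map ψ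
      ((volume.restrict U).withDensity fun u => ENNReal.ofReal (ctRho h t ψ u)) := by
  have hU : MeasurableSet U := (if_open hp).measurableSet
  have hae : AEMeasurable ψ
      ((volume.restrict U).withDensity fun u => ENNReal.ofReal (ctRho h t ψ u)) :=
    ((if_continuousOn hp).aemeasurable hU).mono_ac (withDensity_absolutelyContinuous _ _)
  ext B hB
  rw [Measure.restrict_apply hB, Measure.map_apply_of_aemeasurable hae hB, withDensity_apply',
    Measure.restrict_restrict' hU]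
  have hm : MeasurableSet (U ∩ ψ ⁻¹' B) := if_measurableSet_preimage hp hB
  have h1 := ct_wvol_chart hG.toCtGeo hp inter_subset_left hm
  rw [image_inter_preimage] at h1
  rw [inter_comm B, h1, inter_comm]

/-- integrals in a parametrisation, for ARBITRARY `f`. -/
theorem gs_lintegral_chart (hG : GsGeo d M h t) (hp : IsParam M ψ U) {A : Set (E d)}
    (hA : MeasurableSet A) (hAU : A ⊆ U) (f : V → ℝ≥0∞) :
    ∫⁻ x in ψ '' A, f x ∂(wvol d M h t) =
      ∫⁻ u in A, f (ψ u) * ENNReal.ofReal (ctRho h t ψ u) := by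
  rw [ct_lintegral_wvol_chart hG.toCtGeo hp hAU hA f]
  exact lintegral_congr fun u => mul_comm _ _

theorem gs_integral_chart (hG : GsGeo d M h t) (hp : IsParam M ψ U) {A : Set (E d)}
    (hA : MeasurableSet A) (hAU : A ⊆ U) (f : V → ℝ) :
    ∫ x in ψ '' A, f x ∂(wvol d M h t) = ∫ u in A, f (ψ u) * ctRho h t ψ u := by
  exact ct_integral_wvol_chart hG.toCtGeo hp hAU hA f

theorem gs_integrableOn_chart (hG : GsGeo d M h t) (hp : IsParam M ψ U) {A : Set (E d)}
    (hA : MeasurableSet A) (hAU : A ⊆ U) (f : V → ℝ) :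
    IntegrableOn f (ψ '' A) (wvol d M h t) ↔
      IntegrableOn (fun u => f (ψ u) * ctRho h t ψ u) A := by
  have hm := if_measurableSet_image hp hA hAU
  have h1 := if_integrableOn_vol_image hG.mfd hG.toCtGeo.ten hp hAU hA (fun x => ctW M t x • f x)
  rw [IntegrableOn, ct_wvol_eq, restrict_withDensity hm,
    integrable_withDensity_iff_integrable_smul (ct_measurable_W hG.toCtGeo)]
  rw [IntegrableOn] at h1
  rw [h1]
  refine integrableOn_congr_fun (fun u hu => ?_) hA
  show if_vd h ψ u • ctW M t (ψ u) • f (ψ u) = f (ψ u) * ctRho h t ψ u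
  rw [ct_W_of_mem (if_mem hp (hAU hu)), ct_rho_eq, NNReal.smul_def,
    Real.coe_toNNReal _ (Real.exp_pos _).le, smul_eq_mul, smul_eq_mul]
  ring

/-- null sets in a parametrisation, for ARBITRARY subsets of the chart domain. -/
theorem gsm_null_iff (hG : GsGeo d M h t) (hp : IsParam M ψ U) {B : Set (E d)} (hB : B ⊆ U) :
    wvol d M h t (ψ '' B) = 0 ↔ volume B = 0 := by
  have hU : MeasurableSet U := (if_open hp).measurableSet
  constructor
  · intro h0
    obtain ⟨N, hN, hNm, hN0⟩ := exists_measurable_superset_of_null h0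
    have hm : MeasurableSet (U ∩ ψ ⁻¹' N) := if_measurableSet_preimage hp hNm
    have h1 := ct_wvol_chart hG.toCtGeo hp inter_subset_left hm
    have h2 : wvol d M h t (ψ '' (U ∩ ψ ⁻¹' N)) = 0 :=
      measure_mono_null (by rintro _ ⟨w, hw, rfl⟩; exact hw.2) hN0
    rw [h2] at h1
    have hae : AEMeasurable (fun u => ENNReal.ofReal (ctRho h t ψ u))
        ((volume : Measure (E d)).restrict (U ∩ ψ ⁻¹' N)) :=
      ENNReal.measurable_ofReal.comp_aemeasurable
        (((ct_rho_continuousOn hG.toCtGeo hp).mono inter_subset_left).aemeasurable hm)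
    rw [eq_comm, lintegral_eq_zero_iff' hae, Filter.EventuallyEq, ae_restrict_iff' hm] at h1
    have h3 : ∀ᵐ w ∂(volume : Measure (E d)), w ∉ U ∩ ψ ⁻¹' N := by
      filter_upwards [h1] with w hw hmem
      have := hw hmem
      simp only [Pi.zero_apply, ENNReal.ofReal_eq_zero] at this
      exact absurd (ct_rho_pos hG.toCtGeo hp hmem.1) (not_lt.2 this)
    have h4 : (volume : Measure (E d)) (U ∩ ψ ⁻¹' N) = 0 := by
      rw [ae_iff] at h3
      exact measure_mono_null (fun w hw => not_not.2 hw) h3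
    have hsub : B ⊆ U ∩ ψ ⁻¹' N := fun w hw => ⟨hB hw, hN (mem_image_of_mem ψ hw)⟩
    exact measure_mono_null hsub h4
  · intro h0
    obtain ⟨N, hN, hNm, hN0⟩ := exists_measurable_superset_of_null h0
    have hm : MeasurableSet (N ∩ U) := hNm.inter hU
    have h1 := ct_wvol_chart hG.toCtGeo hp inter_subset_right hm
    have h2 : ∫⁻ u in N ∩ U, ENNReal.ofReal (ctRho h t ψ u) = 0 := by
      rw [Measure.restrict_eq_zero.2 (measure_mono_null inter_subset_left hN0),
        lintegral_zero_measure]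
    rw [h2] at h1
    have hsub : B ⊆ N ∩ U := fun w hw => ⟨hN hw, hB hw⟩
    exact measure_mono_null (image_mono hsub) h1

/-- null sets in a parametrisation. -/
theorem gs_ae_chart (hG : GsGeo d M h t) (hp : IsParam M ψ U) (P : V → Prop) :
    (∀ᵐ x ∂((wvol d M h t).restrict (ψ '' U)), P x) ↔ ∀ᵐ u ∂(volume.restrict U), P (ψ u) := by
  have hU : MeasurableSet U := (if_open hp).measurableSet
  have hS : MeasurableSet (ψ '' U) := if_measurableSet_image hp hU Subset.rfl
  rw [ae_iff, ae_iff, Measure.restrict_apply' hS, Measure.restrict_apply' hU]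
  have e : {x | ¬ P x} ∩ ψ '' U = ψ '' ({u | ¬ P (ψ u)} ∩ U) := by
    ext x
    constructor
    · rintro ⟨hx, u, hu, rfl⟩
      exact ⟨u, ⟨hx, hu⟩, rfl⟩
    · rintro ⟨u, ⟨hx, hu⟩, rfl⟩
      exact ⟨hx, u, hu, rfl⟩
  rw [e]
  exact gsm_null_iff hG hp inter_subset_right

/-- a property which holds a.e. in every parametrisation holds a.e. (countable atlas). -/
theorem gs_ae_of_charts (hG : GsGeo d M h t) (P : V → Prop)
    (hP : ∀ (ψ : E d → V) (U : Set (E d)), IsParam M ψ U → ∀ᵐ u ∂(volume.restrict U), P (ψ u)) :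
    ∀ᵐ x ∂(wvol d M h t), P x := by
  obtain ⟨ψ, U, hp, he⟩ := if_exists_atlas hG.mfd
  have h1 : ∀ k, ∀ᵐ x ∂((wvol d M h t).restrict (ψ k '' U k)), P x := fun k =>
    (gs_ae_chart hG (hp k) P).2 (hP _ _ (hp k))
  have h2 : ∀ᵐ x ∂((wvol d M h t).restrict (⋃ k, ψ k '' U k)), P x :=
    (ae_restrict_iUnion_iff _ _).2 h1
  rw [← he, ct_wvol_restrict_M hG.toCtGeo] at h2
  exact h2

theorem gs_ctRho_pos (hG : GsGeo d M h t) (hp : IsParam M ψ U) {u : E d} (hu : u ∈ U) :
    0 < ctRho h t ψ u :=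
  mul_pos (Real.exp_pos _) (Real.sqrt_pos.2 ((hG.met ψ U hp).2 u hu).det_pos)

theorem gs_ctRho_smooth (hG : GsGeo d M h t) (hp : IsParam M ψ U) :
    ContDiffOn ℝ ∞ (ctRho h t ψ) U :=
  ((hG.drift ψ U hp).neg.exp).mul (rm_sqrtdet_smooth (gs_met hG.met hp))

theorem gs_wvol_compact (hG : GsGeo d M h t) {K : Set V} (hK : IsCompact K) (hKM : K ⊆ M) :
    wvol d M h t K < ⊤ := by
  exact (ct_wvol_compact hG.toCtGeo hK hKM).lt_top

/-- `μ` charges every nonempty relatively open subset of `M`. -/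
theorem gs_wvol_pos (hG : GsGeo d M h t) {x : V} (hx : x ∈ M) {O : Set V} (hO : O ∈ 𝓝 x) :
    0 < wvol d M h t (M ∩ O) := by
  have h1 := ct_wvol_pos hG.toCtGeo isOpen_interior ⟨x, hx, mem_interior_iff_mem_nhds.2 hO⟩
  refine lt_of_lt_of_le h1 ?_
  calc wvol d M h t (interior O) ≤ wvol d M h t ((M ∩ O) ∪ Mᶜ) := measure_mono fun y hy => by
        by_cases hyM : y ∈ M
        · exact Or.inl ⟨hyM, interior_subset hy⟩
        · exact Or.inr hyM
    _ ≤ wvol d M h t (M ∩ O) + wvol d M h t Mᶜ := measure_union_le _ _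
    _ = wvol d M h t (M ∩ O) := by rw [gs_wvol_compl hG, add_zero]

theorem gs_aesm (hG : GsGeo d M h t) (hf : ContinuousOn f M) :
    AEStronglyMeasurable f (wvol d M h t) := by
  exact ct_aestronglyMeasurable hG.toCtGeo hf

theorem gsm_integrableOn (hG : GsGeo d M h t) (hf : ContinuousOn f M) {K : Set V}
    (hK : IsCompact K) (hKM : K ⊆ M) : IntegrableOn f K (wvol d M h t) := by
  obtain ⟨C, hC⟩ := hK.exists_bound_of_continuousOn (hf.mono hKM)
  exact Measure.integrableOn_of_bounded (gs_wvol_compact hG hK hKM).ne (gs_aesm hG hf)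
    ((ae_restrict_iff' hK.measurableSet).2 (Filter.Eventually.of_forall fun x hx => hC x hx))

/-- continuous functions with compact support in `M` are integrable. -/
theorem gs_integrable (hG : GsGeo d M h t) (hf : ContinuousOn f M) (hc : CtCS M f) :
    Integrable f (wvol d M h t) := by
  obtain ⟨K, hK, hKM, h0⟩ := hc
  have h2 : Integrable (K.indicator f) (wvol d M h t) :=
    (integrable_indicator_iff hK.measurableSet).2 (gsm_integrableOn hG hf hK hKM)
  refine h2.congr ?_
  filter_upwards [gs_ae_mem hG] with x hx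
  by_cases hxK : x ∈ K
  · rw [indicator_of_mem hxK]
  · rw [indicator_of_notMem hxK, h0 x hx hxK]

/-- continuous functions are integrable on compact subsets of `M`. -/
theorem gs_integrableOn (hG : GsGeo d M h t) (hf : ContinuousOn f M) {K : Set V}
    (hK : IsCompact K) (hKM : K ⊆ M) : IntegrableOn f K (wvol d M h t) := by
  exact gsm_integrableOn hG hf hK hKM

/-- a function which is continuous on `M ∩ O` and `≥ 0` a.e. there is `≥ 0` there. -/
theorem gs_nonneg_of_ae (hG : GsGeo d M h t) {O : Set V} (hO : IsOpen O)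
    (hf : ContinuousOn f (M ∩ O)) (h0 : ∀ᵐ x ∂(wvol d M h t), x ∈ O → 0 ≤ f x) :
    ∀ x ∈ M ∩ O, 0 ≤ f x := by
  intro x hx
  by_contra hneg
  have hneg' : f x < 0 := not_le.1 hneg
  have h1 : ∀ᶠ y in 𝓝[M ∩ O] x, f y < 0 := (hf x hx).eventually (Iio_mem_nhds hneg')
  obtain ⟨O', hO', hsub⟩ := mem_nhdsWithin_iff_exists_mem_nhds_inter.1 h1
  have h2 := gs_wvol_pos hG hx.1 (Filter.inter_mem (hO.mem_nhds hx.2) hO')
  have h3 : wvol d M h t (M ∩ (O ∩ O')) = 0 := by
    refine measure_mono_null ?_ (ae_iff.1 h0)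
    intro y hy
    have h4 : f y < 0 := hsub ⟨hy.2.2, hy.1, hy.2.1⟩
    exact fun hh => absurd (hh hy.2.1) (not_le.2 h4)
  exact h2.ne' h3

end meas

end Claimed.Agent.R315
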