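import Claimed.Agent.R315.Gs.Defs

/-!
# Row 315, package Gs, part 4: the quadratic form on test functions

Bilinearity, symmetry, integrability of `gsB`, `gsN` on test functions (proved from the leaves
GS-MEAS), Cauchy-Schwarz (leaf GS-CS), the nonnegative improvement (leaf GS-IMPROVE), the local
energy bound (IMS localisation, leaf GS-IMS).
Owner: helper209.
-/

set_option autoImplicit false
set_option linter.unusedSectionVars false
open scoped ContDiff Topology ENNReal
open Claims.C0499 Set MeasureTheory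

namespace Claimed.Agent.R315

variable {V : Type} [NormedAddCommGroup V] [NormedSpace ℝ V] [FiniteDimensional ℝ V]
  [MeasurableSpace V] [BorelSpace V]
variable {d : ℕ} {M : Set V} {h : Ten V} {t : V → ℝ}
variable {φ φ' χ f W F : V → ℝ} {C γ : ℝ}

/-- `⟨dφ,dχ⟩` vanishes on `M` outside the support of `χ`. -/
theorem gs_ip_off (hG : GsGeo d M h t) (hφ : SmoothAlong d M φ) {K : Set V} (hK : IsCompact K)
    (h0 : ∀ x ∈ M, x ∉ K → χ x = 0) {x : V} (hx : x ∈ M) (hxK : x ∉ K) :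
    gradIp d M h φ χ x = 0 := by
  rw [gs_ip_congr_near (f' := φ) (k' := fun _ => 0) (hK.isClosed.isOpen_compl.mem_nhds hxK)
    (fun _ _ => rfl) fun y hy => h0 y hy.1 hy.2]
  exact gs_ip_const_right hG.mfd hG.met 0 hφ hx

theorem gs_B_cs (hG : GsGeo d M h t) (hφ : SmoothAlong d M φ) (hχ : IsTestOn d M χ) :
    CtCS M (fun x => C * gradIp d M h φ χ x + W x * (φ x * χ x)) := by
  obtain ⟨-, K, hK, hKM, h0⟩ := hχ
  refine ⟨K, hK, hKM, fun x hx hxK => ?_⟩
  show C * gradIp d M h φ χ x + W x * (φ x * χ x) = 0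
  rw [gs_ip_off hG hφ hK h0 hx hxK, h0 x hx hxK]
  ring

theorem gs_B_integrable (hG : GsGeo d M h t) (hW : SmoothAlong d M W) (hφ : SmoothAlong d M φ)
    (hχ : IsTestOn d M χ) :
    Integrable (fun x => C * gradIp d M h φ χ x + W x * (φ x * χ x)) (wvol d M h t) :=
  gs_integrable hG (if_smoothAlong_continuousOn hG.mfd
    (gs_sm_add (gs_sm_smul C (if_gradIp_smoothAlong hG.met hφ hχ.1))
      (gs_sm_mul hW (gs_sm_mul hφ hχ.1)))) (gs_B_cs hG hφ hχ)

theorem gs_N_integrable (hG : GsGeo d M h t) (hφ : SmoothAlong d M φ) (hχ : IsTestOn d M χ) :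
    Integrable (fun x => φ x * χ x) (wvol d M h t) :=
  gs_integrable hG (if_smoothAlong_continuousOn hG.mfd (gs_sm_mul hφ hχ.1)) (hχ.mul_left hφ).2

theorem gs_B_add (hG : GsGeo d M h t) (hW : SmoothAlong d M W) (hφ : SmoothAlong d M φ)
    (hφ' : SmoothAlong d M φ') (hχ : IsTestOn d M χ) :
    gsB d M h t C W (fun x => φ x + φ' x) χ = gsB d M h t C W φ χ + gsB d M h t C W φ' χ := by
  unfold gsB
  rw [← integral_add (gs_B_integrable hG hW hφ hχ) (gs_B_integrable hG hW hφ' hχ)]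
  refine integral_congr_ae ?_
  filter_upwards [gs_ae_mem hG] with x hx
  rw [gs_ip_add_left hG.mfd hG.met hφ hφ' hχ.1 hx]
  ring

theorem gs_B_smul (hG : GsGeo d M h t) (r : ℝ) (hφ : SmoothAlong d M φ)
    (hχ : SmoothAlong d M χ) :
    gsB d M h t C W (fun x => r * φ x) χ = r * gsB d M h t C W φ χ := by
  unfold gsB
  rw [← integral_const_mul]
  refine integral_congr_ae ?_
  filter_upwards [gs_ae_mem hG] with x hx
  rw [gs_ip_smul_left hG.mfd hG.met r hφ hχ hx]
  ring

theorem gs_B_symm (hG : GsGeo d M h t) (hφ : SmoothAlong d M φ) (hχ : SmoothAlong d M χ) :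
    gsB d M h t C W φ χ = gsB d M h t C W χ φ := by
  unfold gsB
  refine integral_congr_ae ?_
  filter_upwards [gs_ae_mem hG] with x hx
  rw [gs_ip_comm hG.mfd hG.met hφ hχ hx]
  ring

theorem gs_N_add (hG : GsGeo d M h t) (hF : SmoothAlong d M F) (hφ : IsTestOn d M φ)
    (hφ' : IsTestOn d M φ') :
    gsN d M h t F (fun x => φ x + φ' x) = gsN d M h t F φ + gsN d M h t F φ' := by
  unfold gsN
  rw [← integral_add (gs_N_integrable hG hF hφ) (gs_N_integrable hG hF hφ')]
  refine integral_congr_ae (Filter.Eventually.of_forall fun x => ?_)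
  show F x * (φ x + φ' x) = F x * φ x + F x * φ' x
  ring

theorem gs_N_smul (r : ℝ) (F φ : V → ℝ) :
    gsN d M h t F (fun x => r * φ x) = r * gsN d M h t F φ := by
  unfold gsN
  rw [← integral_const_mul]
  refine integral_congr_ae (Filter.Eventually.of_forall fun x => ?_)
  show F x * (r * φ x) = r * (F x * φ x)
  ring

theorem gs_N_nonneg (φ : V → ℝ) : 0 ≤ gsN d M h t φ φ :=
  integral_nonneg fun x => mul_self_nonneg (φ x)

/-- **leaf GS-CS**: Cauchy-Schwarz.  PLAN: `F`, `φ` are a.e. strongly measurable (`gs_aesm`), `F²`, `φ²` integrable, hence both are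
`MemLp _ 2`; `integral_mul_le_Lp_mul_Lq` (p = q = 2) or: `0 ≤ ∫ (s F + φ)² = s² ∫F² + 2 s ∫Fφ + ∫φ²` for all `s` and
`discrim_le_zero` (integrability of `Fφ` from `|Fφ| ≤ (F²+φ²)/2`). -/
theorem gs_N_cs (hG : GsGeo d M h t) (hF : SmoothAlong d M F)
    (hF2 : Integrable (fun x => F x ^ 2) (wvol d M h t)) (hφ : IsTestOn d M φ) :
    gsN d M h t F φ ^ 2 ≤ (∫ x, F x ^ 2 ∂(wvol d M h t)) * gsN d M h t φ φ := by
  have i1 := hF2
  have i2 := gs_N_integrable hG hF hφ
  have i3 := gs_N_integrable hG hφ.1 hφ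
  have key : ∀ s : ℝ, 0 ≤ (∫ x, F x ^ 2 ∂(wvol d M h t)) * (s * s) + (2 * gsN d M h t F φ) * s
      + gsN d M h t φ φ := by
    intro s
    have e : ∫ x, (s * F x + φ x) ^ 2 ∂(wvol d M h t)
        = (∫ x, F x ^ 2 ∂(wvol d M h t)) * (s * s) + (2 * gsN d M h t F φ) * s + gsN d M h t φ φ := by
      have e1 : (fun x => (s * F x + φ x) ^ 2)
          = fun x => (s * s) * F x ^ 2 + (2 * s) * (F x * φ x) + φ x * φ x := by
        funext x
        ring
      have j1 : Integrable (fun x => (s * s) * F x ^ 2) (wvol d M h t) := i1.const_mul _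
      have j2 : Integrable (fun x => (2 * s) * (F x * φ x)) (wvol d M h t) := i2.const_mul _
      have j12 : Integrable (fun x => (s * s) * F x ^ 2 + (2 * s) * (F x * φ x)) (wvol d M h t) :=
        j1.add j2
      have a1 := integral_add j12 i3
      have a2 := integral_add j1 j2
      rw [e1, a1, a2, integral_const_mul, integral_const_mul]
      unfold gsN
      ring
    rw [← e]
    exact integral_nonneg fun x => sq_nonneg _
  have hd := discrim_le_zero key
  unfold discrim at hd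
  nlinarith

/-- elementary facts on `S(s) = √(s² + ε²) - ε`. -/
theorem gs_imp_S {ε : ℝ} (hε : 0 < ε) :
    ContDiff ℝ ∞ (fun s : ℝ => Real.sqrt (s ^ 2 + ε ^ 2) - ε) ∧
    (∀ s : ℝ, 0 ≤ Real.sqrt (s ^ 2 + ε ^ 2) - ε) ∧
    (∀ s : ℝ, Real.sqrt (s ^ 2 + ε ^ 2) - ε ≤ |s|) ∧
    (∀ s : ℝ, |s| - (Real.sqrt (s ^ 2 + ε ^ 2) - ε) ≤ ε) ∧
    (∀ s : ℝ, deriv (fun s : ℝ => Real.sqrt (s ^ 2 + ε ^ 2) - ε) s ^ 2 ≤ 1) := by
  have hA : ∀ s : ℝ, 0 < s ^ 2 + ε ^ 2 := fun s => by positivity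
  refine ⟨?_, fun s => ?_, fun s => ?_, fun s => ?_, fun s => ?_⟩
  · exact (((contDiff_id.pow 2).add contDiff_const).sqrt fun s => (hA s).ne').sub contDiff_const
  · have : ε ≤ Real.sqrt (s ^ 2 + ε ^ 2) := Real.le_sqrt_of_sq_le (by nlinarith [sq_nonneg s])
    linarith
  · have : Real.sqrt (s ^ 2 + ε ^ 2) ≤ |s| + ε := by
      rw [Real.sqrt_le_left (by positivity)]
      nlinarith [abs_nonneg s, sq_abs s]
    linarith
  · have : |s| ≤ Real.sqrt (s ^ 2 + ε ^ 2) :=
      Real.le_sqrt_of_sq_le (by nlinarith [sq_abs s, sq_nonneg ε])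
    linarith
  · have h1 : HasDerivAt (fun s : ℝ => s ^ 2 + ε ^ 2) (2 * s) s := by
      simpa using (hasDerivAt_pow 2 s).add_const (ε ^ 2)
    have h2 := (h1.sqrt (hA s).ne').sub_const ε
    rw [h2.deriv, div_pow, div_le_one (by positivity), mul_pow, mul_pow, Real.sq_sqrt (hA s).le]
    nlinarith [sq_nonneg ε]

/-- **leaf GS-IMPROVE**: a test function can be replaced by a nonnegative one without increasing `J = B(φ,φ) - 2∫Fφ` by more
than `δ`.  PLAN: `φ' = √(φ² + ε²) - ε = S(φ)`, `S` smooth, `S 0 = 0` (`IsTestOn.comp`); on `M`: `|dφ'|² = S'(φ)² |dφ|² ≤ |dφ|²`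
(`gs_sq_comp`, `S' = s/√(s²+ε²)`), `0 ≤ |φ| - φ' ≤ ε`, `|φ² - φ'²| ≤ 2 ε |φ|`; with `K` the support of `φ`:
`B(φ',φ') - 2∫Fφ' ≤ B(φ,φ) - 2∫F|φ| + 2ε ∫_K |W||φ| + 2ε ∫_K F`, the last integrals are finite (`gs_integrableOn`). -/
theorem gs_improve (hG : GsGeo d M h t) (hW : SmoothAlong d M W) (hC : 0 ≤ C)
    (hF : SmoothAlong d M F) (hF0 : ∀ x ∈ M, 0 ≤ F x) (hφ : IsTestOn d M φ) {δ : ℝ} (hδ : 0 < δ) :
    ∃ φ' : V → ℝ, IsTestOn d M φ' ∧ (∀ x, 0 ≤ φ' x) ∧
      gsB d M h t C W φ' φ' - 2 * gsN d M h t F φ' ≤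
        gsB d M h t C W φ φ - 2 * gsN d M h t F φ + δ := by
  obtain ⟨K, hK, hKM, h0⟩ := hφ.2
  set g : V → ℝ := K.indicator (fun x => 2 * |W x| * |φ x| + 2 * F x) with hg
  have cW := if_smoothAlong_continuousOn hG.mfd hW
  have cφ := if_smoothAlong_continuousOn hG.mfd hφ.1
  have cF := if_smoothAlong_continuousOn hG.mfd hF
  have ig : Integrable g (wvol d M h t) :=
    (gs_integrableOn hG (((continuousOn_const.mul cW.abs).mul cφ.abs).add
      (continuousOn_const.mul cF)) hK hKM).integrable_indicator hK.measurableSet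
  set I : ℝ := ∫ x, g x ∂(wvol d M h t) with hI
  set ε : ℝ := δ / (|I| + 1) with hε
  have hε0 : 0 < ε := by positivity
  have hεI : ε * I ≤ δ := by
    have h1 : ε * I ≤ ε * (|I| + 1) :=
      mul_le_mul_of_nonneg_left (by linarith [le_abs_self I]) hε0.le
    have h2 : ε * (|I| + 1) = δ := by
      rw [hε]
      field_simp
    linarith
  obtain ⟨hS, hS0, hS1, hS2, hS3⟩ := gs_imp_S hε0
  set S : ℝ → ℝ := fun s : ℝ => Real.sqrt (s ^ 2 + ε ^ 2) - ε with hSdef
  have hS00 : S 0 = 0 := by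
    simp only [hSdef]
    rw [zero_pow two_ne_zero, zero_add, Real.sqrt_sq hε0.le, sub_self]
  have hφ' : IsTestOn d M (fun x => S (φ x)) := hφ.comp hS hS00
  refine ⟨fun x => S (φ x), hφ', fun x => hS0 _, ?_⟩
  have iB' := gs_B_integrable (C := C) hG hW hφ'.1 hφ'
  have iB := gs_B_integrable (C := C) hG hW hφ.1 hφ
  have iN' := gs_N_integrable hG hF hφ'
  have iN := gs_N_integrable hG hF hφ
  have key : ∫ x, ((C * gradIp d M h (fun x => S (φ x)) (fun x => S (φ x)) x
        + W x * (S (φ x) * S (φ x))) - 2 * (F x * S (φ x))) ∂(wvol d M h t)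
      ≤ ∫ x, ((C * gradIp d M h φ φ x + W x * (φ x * φ x)) - 2 * (F x * φ x) + ε * g x)
        ∂(wvol d M h t) := by
    refine integral_mono_ae (iB'.sub (iN'.const_mul 2)) ((iB.sub (iN.const_mul 2)).add
      (ig.const_mul ε)) ?_
    filter_upwards [gs_ae_mem hG] with x hx
    have e1 : gradIp d M h (fun x => S (φ x)) (fun x => S (φ x)) x
        = deriv S (φ x) ^ 2 * gradIp d M h φ φ x :=
      gs_sq_comp hG.mfd hG.met isOpen_univ hS.contDiffOn hφ.1 (fun _ _ => mem_univ _) hx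
    have q0 : 0 ≤ gradIp d M h φ φ x := gs_sq_nonneg hG.mfd hG.met hφ.1 hx
    have a1 : C * (deriv S (φ x) ^ 2 * gradIp d M h φ φ x) ≤ C * gradIp d M h φ φ x := by
      refine mul_le_mul_of_nonneg_left ?_ hC
      nlinarith [hS3 (φ x)]
    rw [e1]
    by_cases hxK : x ∈ K
    · have gx : g x = 2 * |W x| * |φ x| + 2 * F x := by
        rw [hg, indicator_of_mem hxK]
      rw [gx]
      have b0 := hS0 (φ x)
      have b1 := hS1 (φ x)
      have b2 := hS2 (φ x)
      have F0 := hF0 x hx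
      -- the potential term
      have a2 : W x * (S (φ x) * S (φ x)) ≤ W x * (φ x * φ x) + ε * (2 * |W x| * |φ x|) := by
        have c1 : 0 ≤ φ x * φ x - S (φ x) * S (φ x) := by
          have : φ x * φ x = |φ x| * |φ x| := (abs_mul_abs_self _).symm
          rw [this]
          nlinarith
        have c2 : φ x * φ x - S (φ x) * S (φ x) ≤ 2 * ε * |φ x| := by
          have : φ x * φ x = |φ x| * |φ x| := (abs_mul_abs_self _).symm
          rw [this]
          nlinarith [abs_nonneg (φ x)]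
        have c3 : -(W x) * (φ x * φ x - S (φ x) * S (φ x))
            ≤ |W x| * (φ x * φ x - S (φ x) * S (φ x)) :=
          mul_le_mul_of_nonneg_right (neg_le_abs _) c1
        have c4 : |W x| * (φ x * φ x - S (φ x) * S (φ x)) ≤ |W x| * (2 * ε * |φ x|) :=
          mul_le_mul_of_nonneg_left c2 (abs_nonneg _)
        nlinarith
      have a3 : F x * φ x - F x * S (φ x) ≤ ε * F x := by
        have : φ x - S (φ x) ≤ ε := by linarith [le_abs_self (φ x)]
        nlinarith
      linarith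
    · have gx : g x = 0 := by rw [hg, indicator_of_notMem hxK]
      rw [gx, h0 x hx hxK, hS00]
      rw [h0 x hx hxK] at a1
      linarith
  have i3 : Integrable (fun x => (C * gradIp d M h φ φ x + W x * (φ x * φ x)) - 2 * (F x * φ x))
      (wvol d M h t) := iB.sub (iN.const_mul 2)
  rw [integral_sub iB' (iN'.const_mul 2), integral_const_mul,
    integral_add i3 (ig.const_mul ε), integral_sub iB (iN.const_mul 2),
    integral_const_mul, integral_const_mul] at key
  unfold gsB gsN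
  linarith

/-- the pointwise IMS identity. -/
theorem gs_ims_pt (hM : IsMfd d M) (hh : IsMetricOn d M h) {θ : V → ℝ} (hθ : SmoothAlong d M θ)
    (hφ : SmoothAlong d M φ) {x : V} (hx : x ∈ M) :
    gradSq d M h (fun y => Real.sin (θ y) * φ y) x + gradSq d M h (fun y => Real.cos (θ y) * φ y) x
      = gradSq d M h φ x + φ x ^ 2 * gradSq d M h θ x := by
  have h1 : SmoothAlong d M (fun y => Real.sin (θ y)) := gs_sm_comp' Real.contDiff_sin hθ
  have h2 : SmoothAlong d M (fun y => Real.cos (θ y)) := gs_sm_comp' Real.contDiff_cos hθ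
  rw [gs_sq_mul hM hh h1 hφ hx, gs_sq_mul hM hh h2 hφ hx,
    gs_ip_comp_left hM hh isOpen_univ Real.contDiff_sin.contDiffOn hθ (fun _ _ => mem_univ _) hφ hx,
    gs_ip_comp_left hM hh isOpen_univ Real.contDiff_cos.contDiffOn hθ (fun _ _ => mem_univ _) hφ hx,
    gs_sq_comp hM hh isOpen_univ Real.contDiff_sin.contDiffOn hθ (fun _ _ => mem_univ _) hx,
    gs_sq_comp hM hh isOpen_univ Real.contDiff_cos.contDiffOn hθ (fun _ _ => mem_univ _) hx,
    Real.deriv_sin, Real.deriv_cos]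
  linear_combination (gradSq d M h φ x + φ x ^ 2 * gradSq d M h θ x) * Real.sin_sq_add_cos_sq (θ x)

/-- **leaf GS-IMS**: local energy bound.  PLAN: `gs_exists_cutoff` gives `η = 1` on `O ⊇ K`; `θ = (π/2) η`, `χ₁ = sin θ`, `χ₂ = cos θ`.
Pointwise on `M` (`gs_sq_mul`, `gs_ip_comp_*`): `|d(χ₁φ)|² + |d(χ₂φ)|² = |dφ|² + φ² |dθ|²`.  Hence
`B(χ₁φ,χ₁φ) + B(χ₂φ,χ₂φ) = B(φ,φ) + C ∫ φ² |dθ|²`; `B(χ₂φ,χ₂φ) ≥ 0` by the gap; `B(χ₁φ,χ₁φ) ≥ C ∫_K |dφ|² - sup_{K'}|W| ∫φ²`
(`χ₁ = 1` on `M ∩ O`: `gs_sq_congr_near`; `K'` = support of `η`; `|dθ|²`, `W` continuous, bounded on `K'`). -/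
theorem gs_loc_energy (hG : GsGeo d M h t) (hW : SmoothAlong d M W) (hC : 0 < C) (hγ : 0 ≤ γ)
    (hgap : GsGap d M h t C W γ) {K : Set V} (hK : IsCompact K) (hKM : K ⊆ M) :
    ∃ c : ℝ, 0 ≤ c ∧ ∀ φ : V → ℝ, IsTestOn d M φ →
      ∫ x in K, gradSq d M h φ x ∂(wvol d M h t) ≤
        c * (gsB d M h t C W φ φ + gsN d M h t φ φ) := by
  obtain ⟨η, O, hη, -, hO, hKO, hη1⟩ := gs_exists_cutoff hG.mfd hK hKM
  obtain ⟨K', hK', hK'M, hη0⟩ := hη.2
  set θ : V → ℝ := fun x => Real.pi / 2 * η x with hθdef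
  have hθ : SmoothAlong d M θ := gs_sm_smul _ hη.1
  have hθ0 : ∀ x ∈ M, x ∉ K' → θ x = 0 := fun x hx hxK => by
    simp only [hθdef, hη0 x hx hxK, mul_zero]
  have h1 : SmoothAlong d M (fun y => Real.sin (θ y)) := gs_sm_comp' Real.contDiff_sin hθ
  have h2 : SmoothAlong d M (fun y => Real.cos (θ y)) := gs_sm_comp' Real.contDiff_cos hθ
  obtain ⟨C1, hC1⟩ := hK'.exists_bound_of_continuousOn
    ((if_smoothAlong_continuousOn hG.mfd (if_gradSq_smoothAlong hG.met hθ)).mono hK'M)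
  obtain ⟨C2, hC2⟩ := hK'.exists_bound_of_continuousOn
    ((if_smoothAlong_continuousOn hG.mfd hW).mono hK'M)
  have b1 : ∀ x ∈ M, gradSq d M h θ x ≤ |C1| := by
    intro x hx
    by_cases hxK : x ∈ K'
    · exact (le_abs_self _).trans ((hC1 x hxK).trans (le_abs_self _))
    · have : gradSq d M h θ x = 0 := gs_ip_off hG hθ hK' hθ0 hx hxK
      rw [this]
      exact abs_nonneg _
  have b2 : ∀ x ∈ M, 0 ≤ W x * Real.sin (θ x) ^ 2 + |C2| := by
    intro x hx
    by_cases hxK : x ∈ K'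
    · have a1 : |W x| ≤ |C2| := (hC2 x hxK).trans (le_abs_self _)
      have a2 : Real.sin (θ x) ^ 2 ≤ 1 := Real.sin_sq_le_one _
      have a3 : -|W x| ≤ W x := neg_abs_le _
      nlinarith [sq_nonneg (Real.sin (θ x)), abs_nonneg (W x)]
    · rw [hθ0 x hx hxK, Real.sin_zero]
      simp
  set a : ℝ := C * |C1| + |C2| with ha
  have ha0 : 0 ≤ a := by positivity
  refine ⟨C⁻¹ * (1 + a), by positivity, fun φ hφ => ?_⟩
  have hT1 : IsTestOn d M (fun y => Real.sin (θ y) * φ y) := hφ.mul_left h1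
  have hT2 : IsTestOn d M (fun y => Real.cos (θ y) * φ y) := hφ.mul_left h2
  have iB := gs_B_integrable (C := C) hG hW hφ.1 hφ
  have iB2 := gs_B_integrable (C := C) hG hW hT2.1 hT2
  have iN := gs_N_integrable hG hφ.1 hφ
  have hB2 : 0 ≤ gsB d M h t C W (fun y => Real.cos (θ y) * φ y) (fun y => Real.cos (θ y) * φ y) :=
    (mul_nonneg hγ (gs_N_nonneg _)).trans (hgap _ hT2)
  have hB : 0 ≤ gsB d M h t C W φ φ := (mul_nonneg hγ (gs_N_nonneg _)).trans (hgap _ hφ)
  have hN : 0 ≤ gsN d M h t φ φ := gs_N_nonneg _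
  have i3 : Integrable (fun x => (C * gradIp d M h φ φ x + W x * (φ x * φ x)) + a * (φ x * φ x))
      (wvol d M h t) := iB.add (iN.const_mul a)
  have key : ∫ x, K.indicator (fun x => C * gradSq d M h φ x) x ∂(wvol d M h t)
      ≤ ∫ x, ((C * gradIp d M h φ φ x + W x * (φ x * φ x)) + a * (φ x * φ x)
        - (C * gradIp d M h (fun y => Real.cos (θ y) * φ y) (fun y => Real.cos (θ y) * φ y) x
          + W x * ((Real.cos (θ x) * φ x) * (Real.cos (θ x) * φ x)))) ∂(wvol d M h t) := by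
    refine integral_mono_of_nonneg ?_ (i3.sub iB2) ?_
    · filter_upwards [gs_ae_mem hG] with x hx
      refine indicator_nonneg (fun y hy => ?_) x
      exact mul_nonneg hC.le (gs_sq_nonneg hG.mfd hG.met hφ.1 (hKM hy))
    · filter_upwards [gs_ae_mem hG] with x hx
      have e := gs_ims_pt hG.mfd hG.met hθ hφ.1 hx
      simp only [if_gradSq_eq_gradIp] at e
      have q1 : 0 ≤ gradIp d M h (fun y => Real.sin (θ y) * φ y) (fun y => Real.sin (θ y) * φ y) x :=
        gs_sq_nonneg hG.mfd hG.met hT1.1 hx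
      have e2 := Real.sin_sq_add_cos_sq (θ x)
      have b1x := b1 x hx
      rw [if_gradSq_eq_gradIp] at b1x
      have b2x := b2 x hx
      have low : C * gradIp d M h (fun y => Real.sin (θ y) * φ y) (fun y => Real.sin (θ y) * φ y) x
          ≤ (C * gradIp d M h φ φ x + W x * (φ x * φ x)) + a * (φ x * φ x)
        - (C * gradIp d M h (fun y => Real.cos (θ y) * φ y) (fun y => Real.cos (θ y) * φ y) x
          + W x * ((Real.cos (θ x) * φ x) * (Real.cos (θ x) * φ x))) := by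
        have e3 : gradIp d M h (fun y => Real.cos (θ y) * φ y) (fun y => Real.cos (θ y) * φ y) x
            = gradIp d M h φ φ x + φ x ^ 2 * gradIp d M h θ θ x
              - gradIp d M h (fun y => Real.sin (θ y) * φ y) (fun y => Real.sin (θ y) * φ y) x := by
          linarith
        rw [e3, ha]
        have e4 : Real.cos (θ x) ^ 2 = 1 - Real.sin (θ x) ^ 2 := by linarith
        have p1 : 0 ≤ C * (φ x ^ 2 * (|C1| - gradIp d M h θ θ x)) :=
          mul_nonneg hC.le (mul_nonneg (sq_nonneg _) (by linarith))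
        have p2 : 0 ≤ φ x ^ 2 * (W x * Real.sin (θ x) ^ 2 + |C2|) :=
          mul_nonneg (sq_nonneg _) b2x
        have e5 : W x * ((Real.cos (θ x) * φ x) * (Real.cos (θ x) * φ x))
            = W x * φ x ^ 2 * (1 - Real.sin (θ x) ^ 2) := by
          rw [← e4]
          ring
        rw [e5]
        nlinarith
      refine le_trans ?_ low
      by_cases hxK : x ∈ K
      · rw [indicator_of_mem hxK]
        have : gradSq d M h φ x
            = gradSq d M h (fun y => Real.sin (θ y) * φ y) x := by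
          refine gs_sq_congr_near (hO.mem_nhds (hKO hxK)) fun y hy => ?_
          simp only [hθdef, hη1 y hy.2, mul_one, Real.sin_pi_div_two, one_mul]
        rw [this]
        exact le_rfl
      · rw [indicator_of_notMem hxK]
        exact mul_nonneg hC.le q1
  rw [integral_indicator hK.measurableSet, integral_const_mul, integral_sub i3 iB2,
    integral_add iB (iN.const_mul a), integral_const_mul] at key
  have key2 : C * ∫ x in K, gradSq d M h φ x ∂(wvol d M h t)
      ≤ gsB d M h t C W φ φ + a * gsN d M h t φ φ := by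
    unfold gsB at hB2
    unfold gsB gsN
    linarith
  have key3 : ∫ x in K, gradSq d M h φ x ∂(wvol d M h t)
      ≤ C⁻¹ * (gsB d M h t C W φ φ + a * gsN d M h t φ φ) := by
    rw [← mul_le_mul_iff_right₀ hC, ← mul_assoc, mul_inv_cancel₀ hC.ne', one_mul]
    exact key2
  refine key3.trans ?_
  rw [mul_assoc]
  refine mul_le_mul_of_nonneg_left ?_ (inv_nonneg.2 hC.le)
  nlinarith

end Claimed.Agent.R315
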